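import Claimed.Agent.R282.S34.G.Forbid

/-!
# Row 282, package BP-S34-G, file `Main`: the strict comparison count (Prop 4.2)

Architect: helper186.  Glue (proved here) + leaves L-G4-T1 (`g4_block_moments`), L-G4-T2 (`g4_noAD_act`, `g4_noDD_act`).

ROUTES.
* `g4_block_moments`.  `sc_raw_iff`: `RawSched lam (θ.map w0.act) (w.act xi) l` and (from `RawSched.endpoint` and `sc_raw`-type lemmas, or directly from `hs.endpoint`) the endpoint is `y1`;  in fact use: `RawSched lam (θ.map w0.act) y1 l` with `y1 := (runSw θ ⟨w0.act, lam⟩ l).pos θ θ.length`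
  (obtain `w` from `(sc_raw_iff ..).1 hs`; `RawSched.endpoint` identifies `w.act xi` with the raw endpoint; the raw endpoint equals `y1`: apply `(sc_raw_iff lam xi θ w0 l).1 hs` and `hs.endpoint`; if a lemma `runSw`/`pos` for `θ.map w0.act` versus the frame `w0.act` is missing, prove it by induction on `l`, generalising the state:
  states `⟨f ∘ w0.act, c⟩` on `θ` and `⟨f, c⟩` on `θ.map w0.act` have the same `pos`, `coeff`, `gap`, `total` because `(θ.map w0.act).val t = w0.act (θ.val t)` (Sched/Shape: `val` of a mapped shape for linear maps)).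
  `sc_exists_tag e P hP l hcl`: `l = untag e L`.  `sc_raw_restrict`: raw block schedules with shapes `(θ.map w0.act).map (resL e)`, `(..).map (resR e)`.   For one block (rank `m`, raw schedule `RawSched a ϑ y l'` with `OneSign ϑ`): `sc_sort_D ϑ`: `ϑ = ϑ'.map u.act`, `ϑ'` dominant;
  `sc_WD_one` gives `w₁` with `w₁.act = id`; `(sc_raw_iff a y ϑ' u l').2 ⟨w₁, _⟩ : IsSchedule a ϑ' y u l'`; an `IsSchedule` is an `IsSched .D` (all side conditions are `True`); `s26 m a y ϑ' _ ⟨u, l', _⟩ : MomentD a ϑ'.sum y`; `an2_moment_weyl_mid`: `MomentD a (u.act ϑ'.sum) y`; `u.act ϑ'.sum = (ϑ'.map u.act).sum = ϑ.sum` (`sc_WD_act_isLinear`, induction on the list);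
  `ϑ.sum = resL e (w0.act θ.sum)` (linearity again: `sc_resL_isLinear`).   `OneSign`: `sc_oneSign_dom`, `sc_oneSign_map θ _ w0.toWB` (`sc_toWB_act`), `sc_oneSign_resL/R`.
* `g4_noAD_act`, `g4_noDD_act`: `sc_WD_mul u₂ w₂` gives `k₂` with `k₂.act z = u₂.act (w₂.act z)`; rewrite and apply the hypothesis with `u₁, k₂, k₃`.
-/

set_option autoImplicit false

namespace Claimed.Agent.R282

open Matrix

variable {n p q : ℕ}

/-! ## the linear algebra core -/

theorem g4_dsp_zero_of_ne (a : Vec p) (h : ∀ k, a k ≠ 0) : lvlMult (g4dsp a) 0 = 0 := by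
  rw [g4_dsp_zero]
  have : (Finset.univ.filter fun k => a k = 0) = ∅ := by
    apply Finset.filter_eq_empty_iff.2
    intro k _
    exact h k
  rw [this]
  simp

/-- the equality case is impossible -/
theorem g4_equality_case (x : Fin 3 → Vec n) (wt : ∀ j, IsWtD (x j)) (hQ : InQD (x 0 + x 1 - x 2))
    (hAD : G4NoAD (x 0) (x 1) (x 2)) (hDD : G4NoDD (x 0) (x 1) (x 2))
    (e : Fin p ⊕ Fin q ≃ Fin n) (hp : 0 < p) (hq : 0 < q)
    (A : Fin 3 → An2M p) (B : Fin 3 → An2M q)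
    (hA : G4Triple (fun j => resL e (x j)) A) (hB : G4Triple (fun j => resR e (x j)) B)
    (hL : ∀ k, resL e (x 1) k ≠ 0) (hR : ∀ k, resR e (x 1) k ≠ 0)
    (hge : (p * 2) * (q * 2) ≤ ∑ j, tieCount (g4dsp (resL e (x j))) (g4dsp (resR e (x j)))) : False := by
  obtain ⟨hstA, hstB⟩ := g4_no_stab_block e x hAD A B hA hB
  have nbA := g4_norm_bounds _ A hA hstA
  have nbB := g4_norm_bounds _ B hB hstB
  have mP : MomentD (resL e (x 0)) (resL e (x 1)) (resL e (x 2)) :=
    (g4_moment_iff (fun j => resL e (x j))).2 ⟨A, hA⟩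
  have mQ : MomentD (resR e (x 0)) (resR e (x 1)) (resR e (x 2)) :=
    (g4_moment_iff (fun j => resR e (x j))).2 ⟨B, hB⟩
  obtain ⟨nX, nY, hprop⟩ := g4_cs_prop (r := p * 2) (h := q * 2) (by omega) (by omega)
    (fun j => g4dsp (resL e (x j))) (fun j => g4dsp (resR e (x j))) (nbA.2.1 hL) (nbB.2.1 hR) hge
  -- irreducibility
  have hcA := g4_commutant x wt hQ hDD e hq A hA hstA mQ hL
  have hcB := g4_commutant x wt hQ hDD ((Equiv.sumComm (Fin q) (Fin p)).trans e) hp B hB hstB mP hR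
  have irA := g4_irrTriple _ A hA hcA
  have irB := g4_irrTriple _ B hB hcB
  have hrh : p * 2 = q * 2 := s34_profile_rigidity (by omega) (by omega) _ _ _ _ irA irB nX nY hprop
  have hpq : p = q := by omega
  subst hpq
  -- identical profiles
  have hg : ∀ j, ∃ g : WB p, resR e (x j) = g.act (resL e (x j)) := by
    intro j
    apply g4_dsp_signed
    intro t
    exact Nat.eq_of_mul_eq_mul_left (by omega : 0 < p * 2) (hprop j t)
  choose g hg using hg
  obtain ⟨z0, z2⟩ := nbA.2.2 hL hp nX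
  obtain ⟨u, ε, σ, hu⟩ := g4_double_labels e x g hg z0 z2
  have hMA := g4_momentA_reindex (fun j => g4dsp (resL e (x j))) σ (g4_moment_double (fun j => resL e (x j)) mP)
  have hn : 0 < n := by
    have h := Fintype.card_congr e
    simp at h
    omega
  apply hAD n 0 (Equiv.sumEmpty (Fin n) (Fin 0)) (u 0) (u 1) (u 2) ε hn
  · have hres : ∀ y : Vec n, resL (Equiv.sumEmpty (Fin n) (Fin 0)) y = y := fun y => rfl
    simp only [hres, hu]
    exact hMA
  · exact an2_moment_of_add _ _ _ (Subsingleton.elim _ _)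

/-- **core**: two orthogonal blocks of a label triple without forbidden decompositions -/
theorem g4_core (x : Fin 3 → Vec n) (wt : ∀ j, IsWtD (x j)) (hQ : InQD (x 0 + x 1 - x 2))
    (hz : (Finset.univ.filter fun i => x 1 i = 0).card ≤ 1)
    (hAD : G4NoAD (x 0) (x 1) (x 2)) (hDD : G4NoDD (x 0) (x 1) (x 2))
    (e : Fin p ⊕ Fin q ≃ Fin n) (hp : 0 < p) (hq : 0 < q)
    (mP : MomentD (resL e (x 0)) (resL e (x 1)) (resL e (x 2)))
    (mQ : MomentD (resR e (x 0)) (resR e (x 1)) (resR e (x 2))) :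
    ∑ j, tieCount (g4dsp (resL e (x j))) (g4dsp (resR e (x j))) < (p * 2) * (q * 2) := by
  obtain ⟨A, hA⟩ := (g4_moment_iff (fun j => resL e (x j))).1 mP
  obtain ⟨B, hB⟩ := (g4_moment_iff (fun j => resR e (x j))).1 mQ
  obtain ⟨hstA, hstB⟩ := g4_no_stab_block e x hAD A B hA hB
  have nbA := g4_norm_bounds _ A hA hstA
  have nbB := g4_norm_bounds _ B hB hstB
  rcases g4_zero_cases e (x 1) hz with ⟨hL, hR⟩ | ⟨hL, hR⟩ | ⟨hL, hR⟩
  · by_contra hge
    exact g4_equality_case x wt hQ hAD hDD e hp hq A B hA hB hL hR (not_lt.1 hge)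
  · exact g4_cs_strict (r := p * 2) (h := q * 2) (by omega) (by omega)
      (fun j => g4dsp (resL e (x j))) (fun j => g4dsp (resR e (x j))) nbA.1 (nbB.2.1 hR) hL
      (g4_dsp_zero_of_ne _ hR)
  · have h := g4_cs_strict (r := q * 2) (h := p * 2) (by omega) (by omega)
      (fun j => g4dsp (resR e (x j))) (fun j => g4dsp (resL e (x j))) nbB.1 (nbA.2.1 hL) hR
      (g4_dsp_zero_of_ne _ hL)
    rw [mul_comm (p * 2)]
    calc ∑ j, tieCount (g4dsp (resL e (x j))) (g4dsp (resR e (x j)))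
        = ∑ j, tieCount (g4dsp (resR e (x j))) (g4dsp (resL e (x j))) :=
          Finset.sum_congr rfl (fun j _ => g4_tie_comm _ _)
      _ < _ := h

/-! ## from schedules to block moments (leaf L-G4-T1) -/

theorem g4_raw_endpoint (lam : Vec n) (θ : Shape n) (w0 : WD n) (l : List (ℝ × RootD n)) :
    (runSw (θ.map w0.act) ⟨id, lam⟩ l).pos (θ.map w0.act) (θ.map w0.act).length
      = (runSw θ ⟨w0.act, lam⟩ l).pos θ θ.length := by
  unfold SwState.pos
  rw [sc_runSw_c, sc_runSw_c, sc_runSw_frame, sc_runSw_frame, sc_val_length, sc_val_length,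
    sc_raw_coeffs, sc_sum_map θ _ (sc_WD_act_isLinear w0)]
  rfl

theorem g4_raw_moment (s26 : SchedMoment .D) (lam y : Vec n) (θ : Shape n) (h1 : OneSign θ)
    (l : List (ℝ × RootD n)) (h : RawSched lam θ y l) : MomentD lam θ.sum y := by
  obtain ⟨u, θ', hdom, rfl⟩ := sc_sort_D θ h1
  obtain ⟨e1, he1⟩ := sc_WD_one (n := n)
  have hs : IsSchedule lam θ' y u l := (sc_raw_iff lam y θ' u l).2 ⟨e1, by rw [he1]; exact h⟩
  have hs' : IsSched .D lam θ' y u l :=
    ⟨trivial, fun _ _ => trivial, hs.times_mem, hs.sorted, hs.valid, by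
      obtain ⟨w, hw⟩ := hs.endpoint
      exact ⟨w, trivial, hw⟩⟩
  have hM : MomentD lam θ'.sum y := s26 n lam y θ' hdom ⟨u, l, hs'⟩
  rw [sc_sum_map θ' u.act (sc_WD_act_isLinear u)]
  exact (an2_moment_weyl_mid lam θ'.sum y u).2 hM

theorem g4_block_moments (s26 : SchedMoment .D) (lam xi : Vec n) (θ : Shape n) (w0 : WD n)
    (l : List (ℝ × RootD n)) (P : Finset (Fin n)) (hθ : ∀ v ∈ θ, Dom v)
    (hs : IsSchedule lam θ xi w0 l) (hcl : SwClosed l P) (e : Fin p ⊕ Fin q ≃ Fin n)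
    (hP : ∀ i, i ∈ P ↔ ∃ a, e (Sum.inl a) = i) :
    MomentD (resL e lam) (resL e (w0.act θ.sum))
        (resL e ((runSw θ ⟨w0.act, lam⟩ l).pos θ θ.length)) ∧
      MomentD (resR e lam) (resR e (w0.act θ.sum))
        (resR e ((runSw θ ⟨w0.act, lam⟩ l).pos θ θ.length)) := by
  obtain ⟨w, hraw⟩ := (sc_raw_iff lam xi θ w0 l).1 hs
  have hy : w.act xi = (runSw θ ⟨w0.act, lam⟩ l).pos θ θ.length := by
    rw [← hraw.endpoint, g4_raw_endpoint]
  rw [hy] at hraw
  obtain ⟨L, rfl⟩ := sc_exists_tag e P hP l hcl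
  obtain ⟨hL, hR⟩ := sc_raw_restrict e lam _ _ L hraw
  have h1 : OneSign (θ.map w0.act) := sc_oneSign_map θ (sc_oneSign_dom θ hθ) w0.toWB
  have hsum : (θ.map w0.act).sum = w0.act θ.sum := sc_sum_map θ _ (sc_WD_act_isLinear w0)
  constructor
  · have h := g4_raw_moment s26 _ _ _ (sc_oneSign_resL e _ h1) _ hL
    rwa [sc_sum_map _ _ (sc_resL_isLinear e), hsum] at h
  · have h := g4_raw_moment s26 _ _ _ (sc_oneSign_resR e _ h1) _ hR
    rwa [sc_sum_map _ _ (sc_resR_isLinear e), hsum] at h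

/-! ## Weyl invariance of the forbidden decompositions (leaf L-G4-T2) -/

theorem g4_noAD_act (a b c : Vec n) (w₂ w₃ : WD n) (h : G4NoAD a b c) :
    G4NoAD a (w₂.act b) (w₃.act c) := by
  intro p q e u₁ u₂ u₃ ε hp hA hD
  obtain ⟨k₂, hk₂⟩ := sc_WD_mul u₂ w₂
  obtain ⟨k₃, hk₃⟩ := sc_WD_mul u₃ w₃
  rw [← hk₂, ← hk₃] at hA hD
  exact h p q e u₁ k₂ k₃ ε hp hA hD

theorem g4_noDD_act (a b c : Vec n) (w₂ w₃ : WD n) (h : G4NoDD a b c) :
    G4NoDD a (w₂.act b) (w₃.act c) := by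
  intro p q e u₁ u₂ u₃ hp hq hL hR hpar
  obtain ⟨k₂, hk₂⟩ := sc_WD_mul u₂ w₂
  obtain ⟨k₃, hk₃⟩ := sc_WD_mul u₃ w₃
  rw [← hk₂, ← hk₃] at hL hR hpar
  exact h p q e u₁ k₂ k₃ hp hq hL hR hpar

/-! ## Prop 4.2 -/

/-- **Prop 4.2** with the contracts C2, C3 in the form of hypotheses -/
theorem g4_strict_count (lam xi : Vec n) (θ : Shape n) (w0 : WD n) (l : List (ℝ × RootD n))
    (P : Finset (Fin n)) (X : ExcCtx lam θ xi w0 l P) (s26 : SchedMoment .D)
    (hAD : G4NoAD lam θ.sum xi) (hDD : G4NoDD lam θ.sum xi) :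
    crossSum P (jTie lam) + crossSum P (jTie (w0.act θ.sum))
      + crossSum P (jTie ((runSw θ ⟨w0.act, lam⟩ l).pos θ θ.length))
      < crossSum P (fun _ _ => 1) := by
  obtain ⟨p, q, e, hpc, hpq, hP⟩ := sc_exists_split P
  obtain ⟨w, hw⟩ := X.sched.endpoint
  have hp : 0 < p := by
    rw [hpc]
    exact Finset.card_pos.2 X.exc.connP.1
  have hq : 0 < q := by
    have h1 : 0 < (Pᶜ).card := Finset.card_pos.2 X.exc.connQ.1
    rw [Finset.card_compl, Fintype.card_fin] at h1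
    omega
  obtain ⟨mP, mQ⟩ := g4_block_moments s26 lam xi θ w0 l P X.lbl.dom X.sched X.exc.connP.2.1 e hP
  rw [hw] at mP mQ ⊢
  have wt : ∀ j, IsWtD ((![lam, w0.act θ.sum, w.act xi] : Fin 3 → Vec n) j) := by
    intro j
    fin_cases j
    · exact X.lbl.wl
    · exact sc_isWtD_act w0 _ X.lbl.wm
    · exact sc_isWtD_act w _ X.lbl.wx
  have hQ : InQD (lam + w0.act θ.sum - w.act xi) := by
    have h1 := sc_inQD_sub _ _ (sc_inQD_add _ _ X.lbl.hQ (sc_act_sub_mem_Q w0 _ X.lbl.wm))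
      (sc_act_sub_mem_Q w _ X.lbl.wx)
    have h2 : lam + θ.sum - xi + (w0.act θ.sum - θ.sum) - (w.act xi - xi)
        = lam + w0.act θ.sum - w.act xi := by abel
    rwa [h2] at h1
  have hz : (Finset.univ.filter fun i => w0.act θ.sum i = 0).card ≤ 1 := by
    rw [g4_zero_act]
    exact X.lbl.hz
  have hcore := g4_core (![lam, w0.act θ.sum, w.act xi] : Fin 3 → Vec n) wt hQ hz
    (g4_noAD_act _ _ _ w0 w hAD) (g4_noDD_act _ _ _ w0 w hDD) e hp hq mP mQ
  rw [Fin.sum_univ_three] at hcore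
  simp only [Matrix.cons_val_zero, Matrix.cons_val_one, Matrix.cons_val_two, Matrix.head_cons,
    Matrix.tail_cons] at hcore
  rw [g4_cross_tie e P hP, g4_cross_tie e P hP, g4_cross_tie e P hP, g4_cross_one e P hP]
  have hcast : ((tieCount (g4dsp (resL e lam)) (g4dsp (resR e lam))
      + tieCount (g4dsp (resL e (w0.act θ.sum))) (g4dsp (resR e (w0.act θ.sum)))
      + tieCount (g4dsp (resL e (w.act xi))) (g4dsp (resR e (w.act xi))) : ℕ) : ℝ)
      < (((p * 2) * (q * 2) : ℕ) : ℝ) := by exact_mod_cast hcore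
  push_cast at hcast ⊢
  linarith

end Claimed.Agent.R282
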