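import Claimed.Agent.R282.S34.G.Defs

/-!
# Row 282, package BP-S34-G, leaf L-G4-C2: Cauchy-Schwarz for profiles (helper186)
-/

set_option autoImplicit false

namespace Claimed.Agent.R282

theorem g4c_tie_comm {r h : ℕ} (x : Fin r → ℝ) (y : Fin h → ℝ) : tieCount x y = tieCount y x := by
  unfold tieCount
  apply Finset.card_bij (fun p _ => (p.2, p.1))
  · intro p hp
    simp only [Finset.mem_filter, Finset.mem_univ, true_and] at hp ⊢
    exact hp.symm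
  · intro p _ p' _ hpp
    simp only [Prod.mk.injEq] at hpp
    exact Prod.ext hpp.2 hpp.1
  · intro p hp
    simp only [Finset.mem_filter, Finset.mem_univ, true_and] at hp
    exact ⟨(p.2, p.1), by simpa using hp.symm, rfl⟩

theorem g4c_tie_eq_sum {r h : ℕ} (x : Fin r → ℝ) (y : Fin h → ℝ) (S : Finset ℝ) (hS : ∀ j, x j ∈ S) :
    tieCount x y = ∑ t ∈ S, lvlMult x t * lvlMult y t := by
  classical
  have h1 : tieCount x y = ∑ j : Fin r, lvlMult y (x j) := by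
    unfold tieCount lvlMult
    rw [Finset.card_filter, Fintype.sum_prod_type]
    apply Finset.sum_congr rfl
    intro j _
    rw [Finset.card_filter]
    apply Finset.sum_congr rfl
    intro k _
    by_cases hk : x j = y k
    · rw [if_pos hk, if_pos hk.symm]
    · rw [if_neg hk, if_neg (fun h => hk h.symm)]
  have h2 : ∀ t, lvlMult x t * lvlMult y t = ∑ j : Fin r, if x j = t then lvlMult y t else 0 := by
    intro t
    rw [← Finset.sum_filter, Finset.sum_const, smul_eq_mul]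
    rfl
  rw [h1]
  simp only [h2]
  rw [Finset.sum_comm]
  apply Finset.sum_congr rfl
  intro j _
  rw [Finset.sum_ite_eq, if_pos (hS j)]

theorem g4c_lvl_zero {r : ℕ} (x : Fin r → ℝ) (t : ℝ) (h : ∀ j, x j ≠ t) : lvlMult x t = 0 := by
  unfold lvlMult
  rw [Finset.card_eq_zero, Finset.filter_eq_empty_iff]
  intro j _
  exact h j

/-- a finite set of levels containing all values and `0` -/
noncomputable def g4cS {r h : ℕ} (x : Fin 3 → Fin r → ℝ) (y : Fin 3 → Fin h → ℝ) : Finset ℝ :=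
  (Finset.univ.image (fun p : Fin 3 × Fin r => x p.1 p.2)) ∪
    (Finset.univ.image (fun p : Fin 3 × Fin h => y p.1 p.2)) ∪ {0}

theorem g4cS_x {r h : ℕ} (x : Fin 3 → Fin r → ℝ) (y : Fin 3 → Fin h → ℝ) (i : Fin 3) (j : Fin r) :
    x i j ∈ g4cS x y := by
  unfold g4cS
  apply Finset.mem_union_left
  apply Finset.mem_union_left
  exact Finset.mem_image.2 ⟨(i, j), Finset.mem_univ _, rfl⟩

theorem g4cS_y {r h : ℕ} (x : Fin 3 → Fin r → ℝ) (y : Fin 3 → Fin h → ℝ) (i : Fin 3) (j : Fin h) :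
    y i j ∈ g4cS x y := by
  unfold g4cS
  apply Finset.mem_union_left
  apply Finset.mem_union_right
  exact Finset.mem_image.2 ⟨(i, j), Finset.mem_univ _, rfl⟩

theorem g4cS_zero {r h : ℕ} (x : Fin 3 → Fin r → ℝ) (y : Fin 3 → Fin h → ℝ) : (0 : ℝ) ∈ g4cS x y := by
  unfold g4cS
  apply Finset.mem_union_right
  simp

/-- sums of tie counts as sums over `Fin 3 × levels` -/
theorem g4c_sum_tie {r h : ℕ} (x : Fin 3 → Fin r → ℝ) (y : Fin 3 → Fin h → ℝ) (S : Finset ℝ)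
    (hS : ∀ i j, x i j ∈ S) :
    ((∑ i, tieCount (x i) (y i) : ℕ) : ℝ)
      = ∑ a ∈ (Finset.univ : Finset (Fin 3)) ×ˢ S, (lvlMult (x a.1) a.2 : ℝ) * (lvlMult (y a.1) a.2 : ℝ) := by
  rw [Finset.sum_product]
  push_cast
  apply Finset.sum_congr rfl
  intro i _
  rw [g4c_tie_eq_sum (x i) (y i) S (hS i)]
  push_cast
  rfl

theorem g4c_cs {r h : ℕ} (x : Fin 3 → Fin r → ℝ) (y : Fin 3 → Fin h → ℝ) :
    (∑ i, tieCount (x i) (y i)) ^ 2 ≤ (∑ i, tieCount (x i) (x i)) * ∑ i, tieCount (y i) (y i) := by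
  have h1 := g4c_sum_tie x y (g4cS x y) (g4cS_x x y)
  have h2 := g4c_sum_tie x x (g4cS x y) (g4cS_x x y)
  have h3 := g4c_sum_tie y y (g4cS x y) (g4cS_y x y)
  have hcs := Finset.sum_mul_sq_le_sq_mul_sq ((Finset.univ : Finset (Fin 3)) ×ˢ g4cS x y)
    (fun a => (lvlMult (x a.1) a.2 : ℝ)) (fun a => (lvlMult (y a.1) a.2 : ℝ))
  have h : (((∑ i, tieCount (x i) (y i)) ^ 2 : ℕ) : ℝ)
      ≤ (((∑ i, tieCount (x i) (x i)) * ∑ i, tieCount (y i) (y i) : ℕ) : ℝ) := by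
    rw [Nat.cast_pow, Nat.cast_mul, h1, h2, h3]
    simpa only [pow_two] using hcs
  exact_mod_cast h

theorem g4c_cs_prop {r h : ℕ} (hr : 0 < r) (hh : 0 < h) (x : Fin 3 → Fin r → ℝ) (y : Fin 3 → Fin h → ℝ)
    (nx : ∑ i, tieCount (x i) (x i) ≤ r ^ 2) (ny : ∑ i, tieCount (y i) (y i) ≤ h ^ 2)
    (hge : r * h ≤ ∑ i, tieCount (x i) (y i)) :
    ∑ i, tieCount (x i) (x i) = r ^ 2 ∧ ∑ i, tieCount (y i) (y i) = h ^ 2 ∧
      ∀ i a, h * lvlMult (x i) a = r * lvlMult (y i) a := by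
  have h1 := g4c_sum_tie x y (g4cS x y) (g4cS_x x y)
  have h2 := g4c_sum_tie x x (g4cS x y) (g4cS_x x y)
  have h3 := g4c_sum_tie y y (g4cS x y) (g4cS_y x y)
  set T := (Finset.univ : Finset (Fin 3)) ×ˢ g4cS x y with hT
  have hrR : (0 : ℝ) < r := by exact_mod_cast hr
  have hhR : (0 : ℝ) < h := by exact_mod_cast hh
  have nxR : ((∑ i, tieCount (x i) (x i) : ℕ) : ℝ) ≤ (r : ℝ) ^ 2 := by exact_mod_cast nx
  have nyR : ((∑ i, tieCount (y i) (y i) : ℕ) : ℝ) ≤ (h : ℝ) ^ 2 := by exact_mod_cast ny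
  have hgeR : (r : ℝ) * h ≤ ((∑ i, tieCount (x i) (y i) : ℕ) : ℝ) := by exact_mod_cast hge
  have hexp : ∑ a ∈ T, ((h : ℝ) * (lvlMult (x a.1) a.2 : ℝ) - r * (lvlMult (y a.1) a.2 : ℝ)) ^ 2
      = (h : ℝ) ^ 2 * ((∑ i, tieCount (x i) (x i) : ℕ) : ℝ)
        - 2 * r * h * ((∑ i, tieCount (x i) (y i) : ℕ) : ℝ)
        + (r : ℝ) ^ 2 * ((∑ i, tieCount (y i) (y i) : ℕ) : ℝ) := by
    rw [h1, h2, h3, Finset.mul_sum, Finset.mul_sum, Finset.mul_sum, ← Finset.sum_sub_distrib,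
      ← Finset.sum_add_distrib]
    apply Finset.sum_congr rfl
    intro a _
    ring
  have hnn : 0 ≤ ∑ a ∈ T, ((h : ℝ) * (lvlMult (x a.1) a.2 : ℝ) - r * (lvlMult (y a.1) a.2 : ℝ)) ^ 2 :=
    Finset.sum_nonneg (fun a _ => sq_nonneg _)
  have hA : (h : ℝ) ^ 2 * ((∑ i, tieCount (x i) (x i) : ℕ) : ℝ) ≤ (h : ℝ) ^ 2 * (r : ℝ) ^ 2 :=
    mul_le_mul_of_nonneg_left nxR (sq_nonneg _)
  have hB : (r : ℝ) ^ 2 * ((∑ i, tieCount (y i) (y i) : ℕ) : ℝ) ≤ (r : ℝ) ^ 2 * (h : ℝ) ^ 2 :=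
    mul_le_mul_of_nonneg_left nyR (sq_nonneg _)
  have hC : 2 * (r : ℝ) * h * (r * h) ≤ 2 * r * h * ((∑ i, tieCount (x i) (y i) : ℕ) : ℝ) :=
    mul_le_mul_of_nonneg_left hgeR (by positivity)
  have hzero : ∑ a ∈ T, ((h : ℝ) * (lvlMult (x a.1) a.2 : ℝ) - r * (lvlMult (y a.1) a.2 : ℝ)) ^ 2 = 0 := by
    apply le_antisymm _ hnn
    rw [hexp]
    nlinarith
  have hA' : (h : ℝ) ^ 2 * ((∑ i, tieCount (x i) (x i) : ℕ) : ℝ) = (h : ℝ) ^ 2 * (r : ℝ) ^ 2 := by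
    apply le_antisymm hA
    rw [hexp] at hnn
    nlinarith
  have hB' : (r : ℝ) ^ 2 * ((∑ i, tieCount (y i) (y i) : ℕ) : ℝ) = (r : ℝ) ^ 2 * (h : ℝ) ^ 2 := by
    apply le_antisymm hB
    rw [hexp] at hnn
    nlinarith
  refine ⟨?_, ?_, ?_⟩
  · have := mul_left_cancel₀ (pow_ne_zero 2 hhR.ne') hA'
    exact_mod_cast this
  · have := mul_left_cancel₀ (pow_ne_zero 2 hrR.ne') hB'
    exact_mod_cast this
  · intro i a
    by_cases ha : a ∈ g4cS x y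
    · have hterm := (Finset.sum_eq_zero_iff_of_nonneg (fun a _ => sq_nonneg _)).1 hzero (i, a)
        (by rw [hT]; exact Finset.mem_product.2 ⟨Finset.mem_univ _, ha⟩)
      have h4 : (h : ℝ) * (lvlMult (x i) a : ℝ) - r * (lvlMult (y i) a : ℝ) = 0 := by
        simpa using hterm
      have h5 : ((h * lvlMult (x i) a : ℕ) : ℝ) = ((r * lvlMult (y i) a : ℕ) : ℝ) := by
        push_cast
        linarith
      exact_mod_cast h5
    · rw [g4c_lvl_zero (x i) a (fun j hj => ha (hj ▸ g4cS_x x y i j)),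
        g4c_lvl_zero (y i) a (fun j hj => ha (hj ▸ g4cS_y x y i j))]
      simp

theorem g4c_cs_strict {r h : ℕ} (hr : 0 < r) (hh : 0 < h) (x : Fin 3 → Fin r → ℝ) (y : Fin 3 → Fin h → ℝ)
    (nx : ∑ i, tieCount (x i) (x i) ≤ r ^ 2 + 2) (ny : ∑ i, tieCount (y i) (y i) ≤ h ^ 2)
    (zx : lvlMult (x 1) 0 = 2) (zy : lvlMult (y 1) 0 = 0) :
    ∑ i, tieCount (x i) (y i) < r * h := by
  classical
  have h1 := g4c_sum_tie x y (g4cS x y) (g4cS_x x y)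
  have h2 := g4c_sum_tie x x (g4cS x y) (g4cS_x x y)
  have h3 := g4c_sum_tie y y (g4cS x y) (g4cS_y x y)
  set T := (Finset.univ : Finset (Fin 3)) ×ˢ g4cS x y with hT
  have hmem : ((1 : Fin 3), (0 : ℝ)) ∈ T := by
    rw [hT]; exact Finset.mem_product.2 ⟨Finset.mem_univ _, g4cS_zero x y⟩
  have hrR : (0 : ℝ) < r := by exact_mod_cast hr
  have hhR : (0 : ℝ) < h := by exact_mod_cast hh
  have nxR : ((∑ i, tieCount (x i) (x i) : ℕ) : ℝ) ≤ (r : ℝ) ^ 2 + 2 := by exact_mod_cast nx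
  have nyR : ((∑ i, tieCount (y i) (y i) : ℕ) : ℝ) ≤ (h : ℝ) ^ 2 := by exact_mod_cast ny
  -- the modified vector
  let U' : Fin 3 × ℝ → ℝ := fun a => if a = ((1 : Fin 3), (0 : ℝ)) then 0 else (lvlMult (x a.1) a.2 : ℝ)
  have hUV : ∑ a ∈ T, U' a * (lvlMult (y a.1) a.2 : ℝ)
      = ∑ a ∈ T, (lvlMult (x a.1) a.2 : ℝ) * (lvlMult (y a.1) a.2 : ℝ) := by
    apply Finset.sum_congr rfl
    intro a _
    by_cases ha : a = ((1 : Fin 3), (0 : ℝ))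
    · subst ha
      simp [zy]
    · simp only [U', if_neg ha]
  have hUU : ∑ a ∈ T, U' a ^ 2 + 4
      = ∑ a ∈ T, (lvlMult (x a.1) a.2 : ℝ) * (lvlMult (x a.1) a.2 : ℝ) := by
    rw [← Finset.add_sum_erase T _ hmem, ← Finset.add_sum_erase T (fun a => (lvlMult (x a.1) a.2 : ℝ) * _) hmem]
    have e1 : U' ((1 : Fin 3), (0 : ℝ)) = 0 := by simp [U']
    have e2 : ∑ a ∈ T.erase ((1 : Fin 3), (0 : ℝ)), U' a ^ 2
        = ∑ a ∈ T.erase ((1 : Fin 3), (0 : ℝ)), (lvlMult (x a.1) a.2 : ℝ) * (lvlMult (x a.1) a.2 : ℝ) := by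
      apply Finset.sum_congr rfl
      intro a ha
      simp only [U', if_neg (Finset.ne_of_mem_erase ha)]
      ring
    rw [e1, e2]
    simp only [zx]
    norm_num
    ring
  have hcs := Finset.sum_mul_sq_le_sq_mul_sq T U' (fun a => (lvlMult (y a.1) a.2 : ℝ))
  rw [hUV, ← h1] at hcs
  have h3' : ∑ a ∈ T, (lvlMult (y a.1) a.2 : ℝ) ^ 2 = ((∑ i, tieCount (y i) (y i) : ℕ) : ℝ) := by
    rw [h3]
    apply Finset.sum_congr rfl
    intro a _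
    ring
  rw [h3'] at hcs
  have hU0 : 0 ≤ ∑ a ∈ T, U' a ^ 2 := Finset.sum_nonneg (fun a _ => sq_nonneg _)
  have hU1 : ∑ a ∈ T, U' a ^ 2 ≤ (r : ℝ) ^ 2 - 2 := by
    rw [← h2] at hUU
    linarith
  have hτ0 : (0 : ℝ) ≤ ((∑ i, tieCount (x i) (y i) : ℕ) : ℝ) := Nat.cast_nonneg _
  have hlt : ((∑ i, tieCount (x i) (y i) : ℕ) : ℝ) ^ 2 < ((r : ℝ) * h) ^ 2 := by
    calc ((∑ i, tieCount (x i) (y i) : ℕ) : ℝ) ^ 2
        ≤ (∑ a ∈ T, U' a ^ 2) * ((∑ i, tieCount (y i) (y i) : ℕ) : ℝ) := hcs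
      _ ≤ (∑ a ∈ T, U' a ^ 2) * (h : ℝ) ^ 2 := mul_le_mul_of_nonneg_left nyR hU0
      _ ≤ ((r : ℝ) ^ 2 - 2) * (h : ℝ) ^ 2 := mul_le_mul_of_nonneg_right hU1 (sq_nonneg _)
      _ < ((r : ℝ) * h) ^ 2 := by nlinarith [sq_pos_of_pos hhR]
  have hfin : ((∑ i, tieCount (x i) (y i) : ℕ) : ℝ) < (r : ℝ) * h :=
    lt_of_pow_lt_pow_left₀ 2 (by positivity) hlt
  exact_mod_cast hfin

end Claimed.Agent.R282
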