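import Claimed.Agent.R282.S34.G.Defs
import Claimed.Agent.R282.S34.G.CombCS

/-!
# Row 282, package BP-S34-G, file `Comb`: combinatorics of tie counts (no matrices)

Architect: helper186.  Statements FROZEN; helper lemmas: prefix `g4c_`.  No paper.
LEAVES: L-G4-C1 (`g4_cross_tie`, `g4_cross_one`), L-G4-C2 (`g4_tie_comm`, `g4_tie_eq_sum`, `g4_cs`, `g4_cs_prop`, `g4_cs_strict`),
L-G4-C3 (`g4_dsp_zero`, `g4_dsp_abs`, `g4_dsp_signed`), L-G4-C4 (`g4_zero_split`, `g4_zero_act`, `g4_zero_cases`), L-G4-C5 (`g4_double_labels`).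

ROUTES.
* `g4_cross_tie`.  `crossSum P j = 1/2 ∑_{a ∈ P × Bool} ∑_{c ∈ Pᶜ × Bool} j a c`, `jTie x a c = if lv x a = lv x c then 1 else 0`, `lv x (i, b) = sgnB b * x i`.
  The map `Fin (p * 2) → Lab n`, `j ↦ (e (inl k), s = 1)` for `(k, s) = finProdFinEquiv.symm j` is a bijection onto `P ×ˢ univ` with `lv x (..) = g4dsp (resL e x) j`
  (`sgnB false = 1`, `sgnB true = -1`); the same with `inr` onto `Pᶜ ×ˢ univ` (`i ∉ P ↔ ∃ c, e (inr c) = i` because `e` is a bijection).
  `Finset.sum_bij`/`Finset.sum_nbij'` twice, then `tieCount = card (filter ..) = ∑ ∑ if .. then 1 else 0` (`Finset.card_filter`, `Fintype.sum_prod_type`), push casts.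
* `g4_tie_eq_sum`.  `tieCount x y = ∑ j, lvlMult y (x j)` (fibre over the first coordinate) `= ∑ j, ∑ t ∈ S, if x j = t then lvlMult y t else 0` (`Finset.sum_ite_eq`, `hS`), swap the sums, `Finset.card_filter`.
* `g4_cs`.  Take `S := image of all x i j and y i j` (a `Finset ℝ`), `u (i, t) := lvlMult (x i) t`, `v (i, t) := lvlMult (y i) t` on `Fin 3 × S`; `Finset.sum_mul_sq_le_sq_mul_sq` (or `inner_mul_le_norm_mul_norm`) in `ℕ`/`ℝ`.
* `g4_cs_prop`.  With `N = ∑ tie x x ≤ r²`, `N' = ∑ tie y y ≤ h²`, `τ = ∑ tie x y ≥ r h`:  `0 ≤ ∑_{i,t} (h u - r v)² = h² N - 2 r h τ + r² N' ≤ h² r² - 2 r² h² + r² h² = 0` (work in `ℤ` or `ℝ`), so all terms vanish and all inequalities are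
  equalities (`r, h > 0`).  For a level `a ∉ S` both multiplicities are `0`.
* `g4_cs_strict`.  Same `S ∋ 0`; `u' := u` with the entry `(1, 0)` replaced by `0`.  `∑ u' v = τ` (`v (1, 0) = 0`), `∑ u'² = N - 4 ≤ r² - 2`; Cauchy-Schwarz: `τ² ≤ (r² - 2) h² < r² h²`.
* `g4_dsp_zero`, `g4_dsp_abs`.  Transport along `finProdFinEquiv` (`Finset.card_bij` / `Fintype.card_congr`), split `Fin 2`: `lvlMult (g4dsp a) t = card {k | a k = t} + card {k | - a k = t}`;
  for `t > 0` the two sets are disjoint with union `{k | |a k| = t}`.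
* `g4_dsp_signed`.  By `g4_dsp_zero`, `g4_dsp_abs`: `card {k | |a k| = t} = card {k | |b k| = t}` for all `t` (`t < 0`: both empty).  So there is `σ : Perm (Fin p)` with `|b (σ k)| = |a k|`
  (fibrewise equivalence: `Equiv.ofFiberEquiv`, or `Fintype.card` of the fibres + `Equiv.sigmaFiberEquiv`).  `g := ⟨σ, s⟩`, `s i := decide (b i ≠ a (σ.symm i))`; if `b i ≠ a (σ⁻¹ i)` then `b i = - a (σ⁻¹ i)` (`abs_eq_abs`).
* `g4_zero_split`: `Fintype.card`/`Finset.card` along `e` (`Finset.card_bij`, `Fintype.sum_sum_type` for the indicator sums: `sc_sum_split` applied to the indicator vector `fun i => if x i = 0 then 1 else 0`).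
* `g4_zero_act`: `w.act x i = 0 ↔ x (σ⁻¹ i) = 0` (`sgnB ≠ 0`), bijection `σ`.
* `g4_double_labels`.  `a j := resL e (x j)`.  PARITY of `g : WB p` := parity of `card {i | g.s i = true}`.  (i) if `a k₀ = 0` then `g' := ⟨g.σ, update g.s (g.σ k₀) (! g.s (g.σ k₀))⟩` has `g'.act a = g.act a` and the other parity; so
  w.l.o.g. the three `g j` have the same parity `π` (that of `g 1`).  (ii) let `f : Fin p → Bool` be `fun _ => false` if `π` is even and `Pi.single k₀ true`-like (one flip at a fixed `k₀`) if `π` is odd.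
  Define `u j : WD n` explicitly: permutation `e (inl k) ↦ e (inl k)`, `e (inr k) ↦ e (inr ((g j).σ⁻¹ k))`; signs: `false` on `inl`, at `e (inr k')` the sign `xor ((g j).s ((g j).σ k')) (f k')`;
  the number of `true` signs is `≡ π + |f| ≡ 0`.  Then `(u j).act (x j) = glueV e (a j) (flipV f (a j))`.  `ε (e (inl k)) := false`, `ε (e (inr k)) := ! f k`: `flipV ε (..) = glueV e (a j) (- a j)`.
  `σ j := σ₀` for all `j`, `σ₀ (e (inl k)) = finProdFinEquiv (k, 0)`, `σ₀ (e (inr k)) = finProdFinEquiv (k, 1)` (`e.symm.trans` (`Fin p ⊕ Fin p ≃ Fin p × Fin 2`) `.trans finProdFinEquiv`).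
-/

set_option autoImplicit false

namespace Claimed.Agent.R282

variable {n p q : ℕ}

/-! ## L-G4-C1 -/

theorem g4c_dsp_0 (a : Vec p) (k : Fin p) : g4dsp a (finProdFinEquiv (k, 0)) = a k := by
  simp [g4dsp]

theorem g4c_dsp_1 (a : Vec p) (k : Fin p) : g4dsp a (finProdFinEquiv (k, 1)) = - a k := by
  simp [g4dsp]

theorem g4c_sum_dsp {M : Type} [AddCommMonoid M] (H : Fin (p * 2) → M) :
    ∑ j, H j = ∑ k : Fin p, (H (finProdFinEquiv (k, 0)) + H (finProdFinEquiv (k, 1))) := by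
  rw [← Equiv.sum_comp finProdFinEquiv, Fintype.sum_prod_type]
  refine Finset.sum_congr rfl fun k _ => ?_
  rw [Fin.sum_univ_two]

theorem g4c_sum_L {M : Type} [AddCommMonoid M] (e : Fin p ⊕ Fin q ≃ Fin n) (P : Finset (Fin n))
    (hP : ∀ i, i ∈ P ↔ ∃ a, e (Sum.inl a) = i) (F : Lab n → M) :
    ∑ a ∈ P ×ˢ (Finset.univ : Finset Bool), F a
      = ∑ k : Fin p, (F (e (Sum.inl k), false) + F (e (Sum.inl k), true)) := by
  rw [Finset.sum_product]
  have hPm : P = Finset.univ.map
      ⟨fun k : Fin p => e (Sum.inl k), fun a b h => Sum.inl_injective (e.injective h)⟩ := by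
    ext i
    simp only [hP, Finset.mem_map, Finset.mem_univ, true_and]
    rfl
  rw [hPm, Finset.sum_map]
  refine Finset.sum_congr rfl fun k _ => ?_
  rw [Fintype.sum_bool, add_comm]
  rfl

theorem g4c_sum_R {M : Type} [AddCommMonoid M] (e : Fin p ⊕ Fin q ≃ Fin n) (P : Finset (Fin n))
    (hP : ∀ i, i ∈ P ↔ ∃ a, e (Sum.inl a) = i) (F : Lab n → M) :
    ∑ a ∈ Pᶜ ×ˢ (Finset.univ : Finset Bool), F a
      = ∑ k : Fin q, (F (e (Sum.inr k), false) + F (e (Sum.inr k), true)) := by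
  rw [Finset.sum_product]
  have hPm : Pᶜ = Finset.univ.map
      ⟨fun k : Fin q => e (Sum.inr k), fun a b h => Sum.inr_injective (e.injective h)⟩ := by
    ext i
    simp only [Finset.mem_compl, hP, Finset.mem_map, Finset.mem_univ, true_and]
    constructor
    · intro h
      obtain ⟨s, rfl⟩ := e.surjective i
      cases s with
      | inl a => exact absurd ⟨a, rfl⟩ h
      | inr c => exact ⟨c, rfl⟩
    · rintro ⟨c, rfl⟩ ⟨a, ha⟩
      have := e.injective ha
      cases this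
  rw [hPm, Finset.sum_map]
  refine Finset.sum_congr rfl fun k _ => ?_
  rw [Fintype.sum_bool, add_comm]
  rfl

theorem g4c_lv_false (x : Vec n) (i : Fin n) : lv x (i, false) = x i := by
  simp [lv, sgnB]

theorem g4c_lv_true (x : Vec n) (i : Fin n) : lv x (i, true) = - x i := by
  simp [lv, sgnB]

theorem g4c_tie_cast {r h : ℕ} (X : Fin r → ℝ) (Y : Fin h → ℝ) :
    (tieCount X Y : ℝ) = ∑ i, ∑ j, (if X i = Y j then (1 : ℝ) else 0) := by
  unfold tieCount
  rw [Finset.card_filter, Nat.cast_sum, Fintype.sum_prod_type]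
  refine Finset.sum_congr rfl fun i _ => Finset.sum_congr rfl fun j _ => ?_
  split_ifs <;> simp

theorem g4_cross_tie (e : Fin p ⊕ Fin q ≃ Fin n) (P : Finset (Fin n))
    (hP : ∀ i, i ∈ P ↔ ∃ a, e (Sum.inl a) = i) (x : Vec n) :
    crossSum P (jTie x) = (1 / 2 : ℝ) * (tieCount (g4dsp (resL e x)) (g4dsp (resR e x)) : ℝ) := by
  unfold crossSum
  congr 1
  rw [g4c_tie_cast, g4c_sum_L e P hP, g4c_sum_dsp]
  refine Finset.sum_congr rfl fun k _ => ?_
  rw [g4c_sum_R e P hP, g4c_sum_R e P hP, g4c_sum_dsp, g4c_sum_dsp]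
  simp only [jTie, g4c_lv_false, g4c_lv_true, g4c_dsp_0, g4c_dsp_1, resL, resR]

theorem g4_cross_one (e : Fin p ⊕ Fin q ≃ Fin n) (P : Finset (Fin n))
    (hP : ∀ i, i ∈ P ↔ ∃ a, e (Sum.inl a) = i) :
    crossSum P (fun _ _ => 1) = (1 / 2 : ℝ) * (((p * 2) * (q * 2) : ℕ) : ℝ) := by
  unfold crossSum
  congr 1
  rw [g4c_sum_L e P hP]
  simp only [g4c_sum_R e P hP]
  simp only [Finset.sum_const, Finset.card_univ, Fintype.card_fin, nsmul_eq_mul]
  push_cast
  ring

/-! ## L-G4-C2 -/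

theorem g4_tie_comm {r h : ℕ} (x : Fin r → ℝ) (y : Fin h → ℝ) : tieCount x y = tieCount y x :=
  g4c_tie_comm x y

theorem g4_tie_eq_sum {r h : ℕ} (x : Fin r → ℝ) (y : Fin h → ℝ) (S : Finset ℝ) (hS : ∀ j, x j ∈ S) :
    tieCount x y = ∑ t ∈ S, lvlMult x t * lvlMult y t :=
  g4c_tie_eq_sum x y S hS

/-- Cauchy-Schwarz for profiles -/
theorem g4_cs {r h : ℕ} (x : Fin 3 → Fin r → ℝ) (y : Fin 3 → Fin h → ℝ) :
    (∑ i, tieCount (x i) (y i)) ^ 2 ≤ (∑ i, tieCount (x i) (x i)) * ∑ i, tieCount (y i) (y i) :=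
  g4c_cs x y

/-- the equality case -/
theorem g4_cs_prop {r h : ℕ} (hr : 0 < r) (hh : 0 < h) (x : Fin 3 → Fin r → ℝ) (y : Fin 3 → Fin h → ℝ)
    (nx : ∑ i, tieCount (x i) (x i) ≤ r ^ 2) (ny : ∑ i, tieCount (y i) (y i) ≤ h ^ 2)
    (hge : r * h ≤ ∑ i, tieCount (x i) (y i)) :
    ∑ i, tieCount (x i) (x i) = r ^ 2 ∧ ∑ i, tieCount (y i) (y i) = h ^ 2 ∧
      ∀ i a, h * lvlMult (x i) a = r * lvlMult (y i) a :=
  g4c_cs_prop hr hh x y nx ny hge

/-- a zero level of the moving label in one block only -/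
theorem g4_cs_strict {r h : ℕ} (hr : 0 < r) (hh : 0 < h) (x : Fin 3 → Fin r → ℝ) (y : Fin 3 → Fin h → ℝ)
    (nx : ∑ i, tieCount (x i) (x i) ≤ r ^ 2 + 2) (ny : ∑ i, tieCount (y i) (y i) ≤ h ^ 2)
    (zx : lvlMult (x 1) 0 = 2) (zy : lvlMult (y 1) 0 = 0) :
    ∑ i, tieCount (x i) (y i) < r * h :=
  g4c_cs_strict hr hh x y nx ny zx zy

/-! ## L-G4-C3 -/

theorem g4c_dsp_mult (a : Vec p) (t : ℝ) :
    lvlMult (g4dsp a) t
      = (Finset.univ.filter fun k => a k = t).card + (Finset.univ.filter fun k => - a k = t).card := by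
  unfold lvlMult
  rw [Finset.card_filter, Finset.card_filter, Finset.card_filter, ← Finset.sum_add_distrib, g4c_sum_dsp]
  refine Finset.sum_congr rfl fun k _ => ?_
  rw [g4c_dsp_0, g4c_dsp_1]

theorem g4_dsp_zero (a : Vec p) :
    lvlMult (g4dsp a) 0 = 2 * (Finset.univ.filter fun k => a k = 0).card := by
  rw [g4c_dsp_mult, two_mul]
  congr 2
  apply Finset.filter_congr
  intro k _
  exact neg_eq_zero

theorem g4_dsp_abs (a : Vec p) (t : ℝ) (ht : 0 < t) :
    lvlMult (g4dsp a) t = (Finset.univ.filter fun k => |a k| = t).card := by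
  rw [g4c_dsp_mult, Finset.card_filter, Finset.card_filter, Finset.card_filter, ← Finset.sum_add_distrib]
  refine Finset.sum_congr rfl fun k _ => ?_
  by_cases h1 : a k = t
  · have h2 : ¬ (- a k = t) := by rw [h1]; intro h; linarith
    have h3 : |a k| = t := by rw [h1, abs_of_pos ht]
    rw [if_pos h1, if_neg h2, if_pos h3]
  · by_cases h2 : - a k = t
    · have h3 : |a k| = t := by rw [← abs_neg, h2, abs_of_pos ht]
      rw [if_neg h1, if_pos h2, if_pos h3]
    · have h3 : ¬ (|a k| = t) := by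
        intro h
        rcases (abs_eq ht.le).1 h with h4 | h4
        · exact h1 h4
        · exact h2 (by rw [h4, neg_neg])
      rw [if_neg h1, if_neg h2, if_neg h3]

/-- functions with the same fibre cardinalities differ by a permutation -/
theorem g4c_exists_perm (u v : Fin p → ℝ)
    (h : ∀ t, (Finset.univ.filter fun k => u k = t).card = (Finset.univ.filter fun k => v k = t).card) :
    ∃ σ : Equiv.Perm (Fin p), ∀ k, v (σ k) = u k := by
  classical
  have h1 : ∀ t, Nonempty ({k // u k = t} ≃ {k // v k = t}) := by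
    intro t
    refine ⟨Fintype.equivOfCardEq ?_⟩
    rw [Fintype.card_subtype, Fintype.card_subtype]
    exact h t
  exact ⟨Equiv.ofFiberEquiv fun t => (h1 t).some, fun k => Equiv.ofFiberEquiv_map _ k⟩

/-- equal doubled profiles: the labels differ by a signed permutation -/
theorem g4_dsp_signed (a b : Vec p) (h : ∀ t, lvlMult (g4dsp a) t = lvlMult (g4dsp b) t) :
    ∃ g : WB p, b = g.act a := by
  classical
  have hcard : ∀ t, (Finset.univ.filter fun k => |a k| = t).card
      = (Finset.univ.filter fun k => |b k| = t).card := by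
    intro t
    rcases lt_trichotomy t 0 with ht | ht | ht
    · have e : ∀ y : Vec p, (Finset.univ.filter fun k => |y k| = t) = ∅ := by
        intro y
        apply Finset.filter_false_of_mem
        intro i _ hi
        have := abs_nonneg (y i)
        linarith
      rw [e, e]
    · subst ht
      have e : ∀ y : Vec p, (Finset.univ.filter fun k => |y k| = 0)
          = Finset.univ.filter fun k => y k = 0 := by
        intro y
        apply Finset.filter_congr
        intro k _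
        exact abs_eq_zero
      have h0 := h 0
      rw [g4_dsp_zero, g4_dsp_zero] at h0
      rw [e, e]
      omega
    · rw [← g4_dsp_abs a t ht, ← g4_dsp_abs b t ht]
      exact h t
  obtain ⟨σ, hσ⟩ := g4c_exists_perm (fun k => |a k|) (fun k => |b k|) hcard
  refine ⟨⟨σ, fun i => decide (b i ≠ a (σ.symm i))⟩, ?_⟩
  funext i
  unfold WB.act
  by_cases hi : b i = a (σ.symm i)
  · simp [sgnB, hi]
  · have h1 := hσ (σ.symm i)
    rw [Equiv.apply_symm_apply] at h1
    rcases abs_eq_abs.1 h1 with h2 | h2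
    · exact absurd h2 hi
    · simp [sgnB, h2]

/-! ## L-G4-C4 -/

theorem g4_zero_split (e : Fin p ⊕ Fin q ≃ Fin n) (x : Vec n) :
    (Finset.univ.filter fun i => x i = 0).card
      = (Finset.univ.filter fun k => resL e x k = 0).card + (Finset.univ.filter fun k => resR e x k = 0).card := by
  rw [Finset.card_filter, Finset.card_filter, Finset.card_filter, ← Equiv.sum_comp e, Fintype.sum_sum_type]
  rfl

theorem g4_zero_act (w : WD n) (x : Vec n) :
    (Finset.univ.filter fun i => w.act x i = 0).card = (Finset.univ.filter fun i => x i = 0).card := by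
  rw [Finset.card_filter, Finset.card_filter, ← Equiv.sum_comp w.σ.symm (fun i => if x i = 0 then 1 else 0)]
  refine Finset.sum_congr rfl fun i _ => ?_
  have hs : sgnB (w.s i) ≠ 0 := by
    unfold sgnB
    split_ifs <;> norm_num
  have e : w.act x i = 0 ↔ x (w.σ.symm i) = 0 := by
    unfold WD.act
    rw [mul_eq_zero]
    exact ⟨fun h => h.resolve_left hs, Or.inr⟩
  simp only [e]

theorem g4c_ne_of_card {r : ℕ} (y : Vec r) (h : (Finset.univ.filter fun k => y k = 0).card = 0) :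
    ∀ k, y k ≠ 0 := by
  intro k hk
  rw [Finset.card_eq_zero, Finset.filter_eq_empty_iff] at h
  exact h (Finset.mem_univ k) hk

/-- at most one zero: three cases -/
theorem g4_zero_cases (e : Fin p ⊕ Fin q ≃ Fin n) (x : Vec n)
    (h : (Finset.univ.filter fun i => x i = 0).card ≤ 1) :
    ((∀ k, resL e x k ≠ 0) ∧ ∀ k, resR e x k ≠ 0) ∨
    (lvlMult (g4dsp (resL e x)) 0 = 2 ∧ ∀ k, resR e x k ≠ 0) ∨
    ((∀ k, resL e x k ≠ 0) ∧ lvlMult (g4dsp (resR e x)) 0 = 2) := by
  rw [g4_zero_split e x] at h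
  rw [g4_dsp_zero, g4_dsp_zero]
  obtain ⟨cL, hL⟩ : ∃ c, c = (Finset.univ.filter fun k => resL e x k = 0).card := ⟨_, rfl⟩
  obtain ⟨cR, hR⟩ : ∃ c, c = (Finset.univ.filter fun k => resR e x k = 0).card := ⟨_, rfl⟩
  rw [← hL, ← hR] at h ⊢
  have hcases : (cL = 0 ∧ cR = 0) ∨ (cL = 1 ∧ cR = 0) ∨ (cL = 0 ∧ cR = 1) := by omega
  rcases hcases with ⟨h1, h2⟩ | ⟨h1, h2⟩ | ⟨h1, h2⟩
  · exact Or.inl ⟨g4c_ne_of_card _ (hL ▸ h1), g4c_ne_of_card _ (hR ▸ h2)⟩
  · exact Or.inr (Or.inl ⟨by rw [h1], g4c_ne_of_card _ (hR ▸ h2)⟩)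
  · exact Or.inr (Or.inr ⟨g4c_ne_of_card _ (hL ▸ h1), by rw [h2]⟩)

/-! ## L-G4-C5 -/

theorem g4c_card_glue (e : Fin p ⊕ Fin q ≃ Fin n) (T : Fin q → Bool) :
    (Finset.univ.filter fun i : Fin n => Sum.elim (fun _ : Fin p => false) T (e.symm i) = true).card
      = (Finset.univ.filter fun k => T k = true).card := by
  rw [Finset.card_filter, Finset.card_filter, ← Equiv.sum_comp e, Fintype.sum_sum_type]
  simp

theorem g4c_parity_update (T : Fin p → Bool) (c : Fin p) :
    (Finset.univ.filter fun k => Function.update T c (! T c) k = true).card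
        + (Finset.univ.filter fun k => T k = true).card
      = 1 + 2 * ((Finset.univ.erase c).filter fun k => T k = true).card := by
  rw [Finset.card_filter, Finset.card_filter, Finset.card_filter,
    ← Finset.add_sum_erase _ _ (Finset.mem_univ c),
    ← Finset.add_sum_erase Finset.univ (fun k => if T k = true then 1 else 0) (Finset.mem_univ c)]
  have h : ∑ k ∈ Finset.univ.erase c, (if Function.update T c (! T c) k = true then 1 else 0)
      = ∑ k ∈ Finset.univ.erase c, (if T k = true then 1 else 0) :=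
    Finset.sum_congr rfl fun k hk => by rw [Function.update_of_ne (Finset.ne_of_mem_erase hk)]
  rw [h, Function.update_self]
  cases T c <;> simp <;> ring

theorem g4c_exists_T (a : Vec p) (g : WB p) (ε' : Fin p → Bool)
    (hz : (∃ k, a k = 0) ∨ ∀ k', ε' k' = ! g.s k') :
    ∃ T : Fin p → Bool, Even (Finset.univ.filter fun k => T k = true).card ∧
      ∀ k', sgnB (ε' k') * (sgnB (T k') * (sgnB (g.s k') * a (g.σ.symm k'))) = - a (g.σ.symm k') := by
  rcases hz with ⟨k₀, hk₀⟩ | hε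
  · obtain ⟨T₀, hT₀⟩ : ∃ T₀ : Fin p → Bool, T₀ = fun k' => !(xor (ε' k') (g.s k')) := ⟨_, rfl⟩
    have base : ∀ k', sgnB (ε' k') * (sgnB (T₀ k') * sgnB (g.s k')) = -1 := by
      intro k'
      have hb : ∀ a b : Bool, sgnB a * (sgnB (!(xor a b)) * sgnB b) = -1 := by
        intro a b
        cases a <;> cases b <;> simp [sgnB]
      rw [hT₀]
      exact hb _ _
    by_cases hev : Even (Finset.univ.filter fun k => T₀ k = true).card
    · exact ⟨T₀, hev, fun k' => by linear_combination (a (g.σ.symm k')) * base k'⟩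
    · refine ⟨Function.update T₀ (g.σ k₀) (! T₀ (g.σ k₀)), ?_, ?_⟩
      · have h1 := g4c_parity_update T₀ (g.σ k₀)
        rw [Nat.even_iff] at hev ⊢
        omega
      · intro k'
        by_cases hk : k' = g.σ k₀
        · subst hk
          rw [Equiv.symm_apply_apply, hk₀]
          simp
        · rw [Function.update_of_ne hk]
          linear_combination (a (g.σ.symm k')) * base k'
  · refine ⟨fun _ => false, by simp, fun k' => ?_⟩
    rw [hε k']
    cases g.s k' <;> simp [sgnB]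

theorem g4c_exists_sigma (e : Fin p ⊕ Fin p ≃ Fin n) (τ : Equiv.Perm (Fin p)) :
    ∃ σ : Fin n ≃ Fin (p * 2), (∀ k, σ (e (Sum.inl k)) = finProdFinEquiv (k, 0)) ∧
      ∀ k', σ (e (Sum.inr k')) = finProdFinEquiv (τ.symm k', 1) := by
  obtain ⟨ψ, hψl, hψr⟩ : ∃ ψ : Fin p ⊕ Fin p ≃ Fin p × Fin 2,
      (∀ k, ψ (Sum.inl k) = (k, 0)) ∧ ∀ k', ψ (Sum.inr k') = (τ.symm k', 1) :=
    ⟨{ toFun := Sum.elim (fun k => (k, 0)) (fun k' => (τ.symm k', 1))
       invFun := fun x => if x.2 = 0 then Sum.inl x.1 else Sum.inr (τ x.1)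
       left_inv := by rintro (k | k) <;> simp
       right_inv := by rintro ⟨k, s⟩; fin_cases s <;> simp }, fun k => rfl, fun k' => rfl⟩
  exact ⟨e.symm.trans (ψ.trans finProdFinEquiv), fun k => by simp [hψl], fun k' => by simp [hψr]⟩

theorem g4c_one_label (e : Fin p ⊕ Fin p ≃ Fin n) (y : Vec n) (g : WB p)
    (hg : resR e y = g.act (resL e y)) (ε' : Fin p → Bool)
    (hz : (∃ k, resL e y k = 0) ∨ ∀ k', ε' k' = ! g.s k') :
    ∃ (u : WD n) (σ : Fin n ≃ Fin (p * 2)),
      flipV (fun i => Sum.elim (fun _ => false) ε' (e.symm i)) (u.act y) = g4dsp (resL e y) ∘ σ := by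
  obtain ⟨T, hTe, hT⟩ := g4c_exists_T (resL e y) g ε' hz
  obtain ⟨σ, hσl, hσr⟩ := g4c_exists_sigma e g.σ
  refine ⟨⟨Equiv.refl _, fun i => Sum.elim (fun _ => false) T (e.symm i), by
    rw [g4c_card_glue]; exact hTe⟩, σ, ?_⟩
  funext i
  obtain ⟨s, rfl⟩ := e.surjective i
  cases s with
  | inl k => simp [flipV, WD.act, hσl, g4c_dsp_0, resL, sgnB]
  | inr k' =>
    have h1 : y (e (Sum.inr k')) = sgnB (g.s k') * resL e y (g.σ.symm k') := congrFun hg k'
    simp only [flipV, WD.act, Function.comp, hσr, g4c_dsp_1, Equiv.symm_apply_apply, Sum.elim_inr,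
      Equiv.refl_symm, Equiv.refl_apply]
    rw [h1]
    exact hT k'

/-- two blocks with the same labels up to signed permutations: after Weyl group elements and ONE common change of
signs the three labels are rearrangements of the doubled spectra of the first block -/
theorem g4_double_labels (e : Fin p ⊕ Fin p ≃ Fin n) (x : Fin 3 → Vec n) (g : Fin 3 → WB p)
    (hg : ∀ j, resR e (x j) = (g j).act (resL e (x j)))
    (z0 : ∃ k, resL e (x 0) k = 0) (z2 : ∃ k, resL e (x 2) k = 0) :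
    ∃ (u : Fin 3 → WD n) (ε : Fin n → Bool) (σ : Fin 3 → (Fin n ≃ Fin (p * 2))),
      ∀ j, flipV ε ((u j).act (x j)) = g4dsp (resL e (x j)) ∘ σ j := by
  obtain ⟨u0, σ0, h0⟩ := g4c_one_label e (x 0) (g 0) (hg 0) (fun k' => ! (g 1).s k') (Or.inl z0)
  obtain ⟨u1, σ1, h1⟩ := g4c_one_label e (x 1) (g 1) (hg 1) (fun k' => ! (g 1).s k')
    (Or.inr fun _ => rfl)
  obtain ⟨u2, σ2, h2⟩ := g4c_one_label e (x 2) (g 2) (hg 2) (fun k' => ! (g 1).s k') (Or.inl z2)
  refine ⟨![u0, u1, u2], fun i => Sum.elim (fun _ => false) (fun k' => ! (g 1).s k') (e.symm i),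
    ![σ0, σ1, σ2], fun j => ?_⟩
  fin_cases j
  · exact h0
  · exact h1
  · exact h2

end Claimed.Agent.R282
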