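import Claimed.Agent.R282.S2AB.AN2.Unique
import Claimed.Agent.R282.S34.Link

/-!
# Row 282, package BP-S34-G (Prop 4.2, the strict comparison count): definitions

Architect: helper186.  All names carry the prefix `g4_` / `G4` / `g4`.  No paper is needed for any leaf.

Everything is stated for real matrices on `Ix p = Fin p × Fin 2` (`An2M p`, `An2Orb`, `Jmat` of `S2AB/AN2`).

* `g4dsp a`      : the doubled spectrum `(a_k, - a_k)_k` (eigenvalues of `i J(a)`), indexed by `Fin (p * 2)`;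
* `g4glue e A B` : block diagonal matrix along a splitting `e : Fin p ⊕ Fin q ≃ Fin n`;
* `G4Triple a A` : `A 0 + A 1 = A 2`, `A j` in the `SO`-orbit of `J(a j)`;
* `G4NoStab A`   : no nonzero skew matrix commutes with the three matrices;
* `G4NoAD`, `G4NoDD` : the two forbidden block decompositions (contracts C3, C2 + "no integral schedule").
-/

set_option autoImplicit false

namespace Claimed.Agent.R282

open Matrix

variable {n p q : ℕ}

/-- doubled spectrum: `(k, 0) ↦ a k`, `(k, 1) ↦ - a k` -/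
def g4dsp (a : Vec p) : Fin (p * 2) → ℝ :=
  fun j => (if (finProdFinEquiv.symm j).2 = 0 then 1 else -1) * a (finProdFinEquiv.symm j).1

/-- the splitting of the matrix indices induced by a splitting of the axes -/
def g4ix (e : Fin p ⊕ Fin q ≃ Fin n) : Ix p ⊕ Ix q ≃ Ix n :=
  (Equiv.sumProdDistrib (Fin p) (Fin q) (Fin 2)).symm.trans (e.prodCongr (Equiv.refl (Fin 2)))

/-- block diagonal matrix -/
def g4glue (e : Fin p ⊕ Fin q ≃ Fin n) (A : An2M p) (B : An2M q) : An2M n :=
  Matrix.reindex (g4ix e) (g4ix e) (Matrix.fromBlocks A 0 0 B)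

/-- a solution of the addition problem with labels `a 0, a 1, a 2` -/
structure G4Triple (a : Fin 3 → Vec p) (A : Fin 3 → An2M p) : Prop where
  orb : ∀ j, An2Orb (A j) (a j)
  sum : A 0 + A 1 = A 2

/-- trivial common skew stabiliser -/
def G4NoStab (A : Fin 3 → An2M p) : Prop :=
  ∀ Z : An2M p, Z.transpose = -Z → (∀ j, Z * A j = A j * Z) → Z = 0

/-- forbidden: a permutation block (after a change of signs) and an orthogonal block -/
def G4NoAD (a b c : Vec n) : Prop :=
  ∀ (p q : ℕ) (e : Fin p ⊕ Fin q ≃ Fin n) (u₁ u₂ u₃ : WD n) (ε : Fin p → Bool), 0 < p →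
    MomentA (flipV ε (resL e (u₁.act a))) (flipV ε (resL e (u₂.act b))) (flipV ε (resL e (u₃.act c))) →
    MomentD (resR e (u₁.act a)) (resR e (u₂.act b)) (resR e (u₃.act c)) → False

/-- forbidden: two orthogonal blocks of even parity -/
def G4NoDD (a b c : Vec n) : Prop :=
  ∀ (p q : ℕ) (e : Fin p ⊕ Fin q ≃ Fin n) (u₁ u₂ u₃ : WD n), 0 < p → 0 < q →
    MomentD (resL e (u₁.act a)) (resL e (u₂.act b)) (resL e (u₃.act c)) →
    MomentD (resR e (u₁.act a)) (resR e (u₂.act b)) (resR e (u₃.act c)) →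
    InQD (resL e (u₁.act a + u₂.act b - u₃.act c)) → False

/-- eigenspace of a matrix -/
def g4eig (S : An2M p) (t : ℝ) : Submodule ℝ (Ix p → ℝ) :=
  LinearMap.ker (Matrix.mulVecLin (S - t • (1 : An2M p)))

/-- `O` rotates the first coordinate block onto `E` -/
def G4Adapted (e : Fin p ⊕ Fin q ≃ Fin n) (O : An2M n) (E : Submodule ℝ (Ix n → ℝ)) : Prop :=
  ∀ v, v ∈ E ↔ ∀ (k : Fin q) (s : Fin 2), (O.transpose *ᵥ v) (e (Sum.inr k), s) = 0

/-- skew matrices -/
def g4so (p : ℕ) : Submodule ℝ (An2M p) where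
  carrier := {Z | Z.transpose = -Z}
  add_mem' := by
    intro a b ha hb
    simp only [Set.mem_ofPred_eq] at *
    rw [Matrix.transpose_add, ha, hb, neg_add]
  zero_mem' := by simp
  smul_mem' := by
    intro c a ha
    simp only [Set.mem_ofPred_eq] at *
    rw [Matrix.transpose_smul, ha, smul_neg]

/-- skew matrices commuting with `A` -/
def g4cen (A : An2M p) : Submodule ℝ (An2M p) where
  carrier := {Z | Z.transpose = -Z ∧ Z * A = A * Z}
  add_mem' := by
    intro a b ha hb
    simp only [Set.mem_ofPred_eq] at *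
    refine ⟨by rw [Matrix.transpose_add, ha.1, hb.1, neg_add], ?_⟩
    rw [add_mul, mul_add, ha.2, hb.2]
  zero_mem' := by simp
  smul_mem' := by
    intro c a ha
    simp only [Set.mem_ofPred_eq] at *
    refine ⟨by rw [Matrix.transpose_smul, ha.1, smul_neg], ?_⟩
    rw [smul_mul_assoc, mul_smul_comm, ha.2]

/-- realification of a complex matrix: `Re M ⊗ 1 + Im M ⊗ [[0, 1], [-1, 0]]` -/
def g4rho (M : Matrix (Fin p) (Fin p) ℂ) : An2M p :=
  fun a b => if a.2 = b.2 then (M a.1 b.1).re else if a.2 = 0 then (M a.1 b.1).im else - (M a.1 b.1).im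

/-- the Hermitian matrix `σ i A` on `Fin (p * 2)` -/
noncomputable def g4cx (σ : ℝ) (A : An2M p) : Matrix (Fin (p * 2)) (Fin (p * 2)) ℂ :=
  Matrix.reindex finProdFinEquiv finProdFinEquiv (((σ : ℂ) * Complex.I) • A.map (fun r : ℝ => (r : ℂ)))

/-- the Hermitian zero-sum triple of a skew triple -/
noncomputable def g4X (A : Fin 3 → An2M p) : Fin 3 → Matrix (Fin (p * 2)) (Fin (p * 2)) ℂ :=
  ![g4cx 1 (A 0), g4cx 1 (A 1), g4cx (-1) (A 2)]

theorem g4_moment_iff (a : Fin 3 → Vec p) : MomentD (a 0) (a 1) (a 2) ↔ ∃ A, G4Triple a A := by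
  rw [an2_moment_iff]
  constructor
  · rintro ⟨X, Y, hX, hY, hZ⟩
    refine ⟨![X, Y, X + Y], ⟨?_, by simp⟩⟩
    intro j
    fin_cases j
    · simpa using hX
    · simpa using hY
    · simpa using hZ
  · rintro ⟨A, hA⟩
    exact ⟨A 0, A 1, hA.orb 0, hA.orb 1, hA.sum ▸ hA.orb 2⟩

theorem G4Triple.skew {a : Fin 3 → Vec p} {A : Fin 3 → An2M p} (h : G4Triple a A) (j : Fin 3) :
    (A j).transpose = - A j := an2_orb_skew (h.orb j)

theorem g4_mem_so (Z : An2M p) : Z ∈ g4so p ↔ Z.transpose = -Z := Iff.rfl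

theorem g4_mem_cen (A Z : An2M p) : Z ∈ g4cen A ↔ Z.transpose = -Z ∧ Z * A = A * Z := Iff.rfl

theorem g4_mem_eig (S : An2M p) (t : ℝ) (v : Ix p → ℝ) : v ∈ g4eig S t ↔ S *ᵥ v = t • v := by
  unfold g4eig
  rw [LinearMap.mem_ker, Matrix.mulVecLin_apply, Matrix.sub_mulVec, Matrix.smul_mulVec, Matrix.one_mulVec,
    sub_eq_zero]

end Claimed.Agent.R282
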