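import Claimed.Agent.R282.S34.G.Defs

/-!
# Row 282, package BP-S34-G, file `Mat`: block diagonal matrices, orbits, adapted rotations, eigenspaces

Architect: helper186.  Statements FROZEN; helper lemmas: prefix `g4m_`.  No paper.
LEAVES: L-G4-M1 (section `Glue`), L-G4-M2 (section `Orb`), L-G4-M3 (`g4_exists_adapted`), L-G4-M4 (`g4_block_form`, `g4_block_scalar`),
L-G4-M5 (`g4_even_of_skew_inj`), L-G4-M6 (`g4_exists_eigenspace`, `g4_exists_pos_eig`, `g4_eig_invariant`), L-G4-M7 (`g4_split`, `g4_exists_split_equiv`).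

ROUTES.
* section `Glue`.  `g4glue e A B = reindex (g4ix e) (g4ix e) (fromBlocks A 0 0 B) = (fromBlocks ..).submatrix (g4ix e).symm (g4ix e).symm`.  `Matrix.fromBlocks_multiply`, `fromBlocks_add`, `fromBlocks_transpose`, `fromBlocks_smul`,
  `fromBlocks_one`, `Matrix.submatrix_mul_equiv`, `Matrix.transpose_submatrix`, `Matrix.submatrix_one_equiv`, `Matrix.det_reindex_self`/`det_submatrix_equiv_self`, `Matrix.det_fromBlocks_zero₁₂`, `Matrix.fromBlocks_inj`.
  `g4_glue_apply_*`: `(g4ix e).symm (e (inl k), s) = inl (k, s)` (`Equiv.symm_apply_eq`, `rfl`/`simp [g4ix]`).   `g4_glue_J`: entrywise, every index of `Ix n` is `(e (inl k), s)` or `(e (inr k), s)` (`e.surjective`, `Sum` cases); `Jmat`, `glueV` unfold; `e.injective`.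
* `g4_glue_so`: `an2_so_mk`, `g4_glue_mul`, `g4_glue_transpose`, `g4_glue_one`, `g4_glue_det`, `an2_so_mul_transpose`, `an2_so_det`.     `g4_glue_orb`: `g4_glue_so`, `g4_glue_mul`, `g4_glue_J`.
* `g4_moment_glue`: `an2_moment_iff`, `g4_glue_orb`, `g4_glue_add`.
* `g4_orb_unique`: `sc_exists_dom a`, `sc_exists_dom b` give `u, v`; `an2_orb_weyl`, `an2_unique`: `v.act b = u.act a`; `sc_WD_inv v`, `sc_WD_mul`.
* `g4_orb_of_orth`: `det g = 1`: `an2_so_mk`.  `det g = -1`: `g' := g * an2D i₀` is in `SO` (`an2D_orth`, `an2D_det`, `Matrix.det_mul`), `an2D i₀ * J(update c i₀ (- c i₀)) * (an2D i₀)ᵀ = J(c)` (`an2D_conj`, `Function.update_idem`, `neg_neg`, `Function.update_eq_self`).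
* `g4_orb_transpose_conj`: `O.1ᵀ` is again in `SO` (`an2_so_mk`, `an2_so_transpose_mul`, `Matrix.det_transpose`); `an2_orb_conj`.
* `g4_exists_adapted`.  Work in `F := EuclideanSpace ℝ (Ix n)`; `E' := E` transported (`WithLp.linearEquiv 2 ℝ (Ix n → ℝ)`).  `stdOrthonormalBasis ℝ E'` reindexed to `Ix p` (`finrank = 2 * p = card (Ix p)`), `stdOrthonormalBasis ℝ E'ᗮ` reindexed to `Ix q`
  (`Submodule.finrank_add_finrank_orthogonal`, `card (Ix n) = 2 * (p + q)` from `Fintype.card_congr e`).  Columns `O (·) (g4ix e (inl a)) := b₁ a`, `O (·) (g4ix e (inr c)) := b₂ c`: orthonormal family indexed by `Ix n`, so `Oᵀ O = 1`, `O Oᵀ = 1` (`Matrix.mul_eq_one_comm`).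
  `(Oᵀ v) (e (inr k), s) = ⟪b₂ (k, s), v⟫`; `v ∈ E' ↔ v ⊥ E'ᗮ ↔ ∀ c, ⟪b₂ c, v⟫ = 0` (`Submodule.orthogonal_orthogonal`, the basis spans).   Determinant: `an2_orth_det`; if `det O = -1` then `n ≥ 1`; replace `O` by `O * an2D i₀`: `(O D)ᵀ v = D (Oᵀ v)` has the same zero coordinates.
* `g4_block_form`.  `N := Oᵀ M O`.  For `w` supported on the first block, `O w ∈ E` (adaptedness, `Oᵀ O = 1`), so `M O w ∈ E`, so `N w` is supported on the first block: the lower left block of `N` vanishes (take `w = Pi.single`).  The same for `Mᵀ`: `Nᵀ = Oᵀ Mᵀ O`, the upper right block vanishes.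
  `M' := N.submatrix (g4ix e ∘ inl) (g4ix e ∘ inl)`, `M''` likewise; `Matrix.fromBlocks_toBlocks`, `Matrix.ext`.
* `g4_block_scalar`.  For `w` supported on the first block: `N w = Oᵀ M O w = t Oᵀ O w = t w`; read off the entries of `M'` with `w = Pi.single (g4ix e (inl a)) 1` (`g4_glue_apply_ll`).
* `g4_even_of_skew_inj`.  In `EuclideanSpace`: `T := (toEuclideanLin M).restrict` on `E'` is skew and injective.  With `b := stdOrthonormalBasis ℝ E'`, `X := LinearMap.toMatrix b.toBasis b.toBasis T` has `Xᵀ = -X` (`X i j = ⟪b i, T (b j)⟫`: `OrthonormalBasis.repr_apply_apply`),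
  `det X = det Xᵀ = (-1)^d det X` (`Matrix.det_neg`, `Fintype.card_fin`), and `det X ≠ 0` (`LinearMap.det_toMatrix`, injective ⇒ bijective ⇒ `LinearMap.det ≠ 0`: `LinearEquiv.ofInjectiveEndo`, `LinearEquiv.isUnit_det'`).  So `(-1)^d = 1`, `d` even (`Odd.neg_one_pow`).
  ALTERNATIVE: `an2_skew_pair`/`an2_skew_compl` and strong induction on the dimension.
* `g4_exists_eigenspace`.  `p = 0`: every matrix is `0 • 1` (`Subsingleton`).  `p > 0`: `hS.isHermitian`; `Matrix.IsHermitian.eigenvalues`, `eigenvectorBasis`, `Matrix.IsHermitian.mulVec_eigenvectorBasis`: `t := eigenvalues (some index)`, the eigenvector is `≠ 0`, so `g4eig S t ≠ ⊥` (`g4_mem_eig`).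
  If `g4eig S t = ⊤` then `S *ᵥ v = t • v` for all `v`, so `S = t • 1` (`Matrix.ext` with `Pi.single`, or `Matrix.mulVec_injective`-type lemma `Matrix.ext_of_mulVec_single`).
* `g4_exists_pos_eig`.  `S := Zᵀ Z` is symmetric; if all eigenvalues were `0` then `S = 0` (`Matrix.IsHermitian.spectral_theorem` or `eigenvalues_eq_zero_iff`), so `trace (Zᵀ Z) = ∑ Z²= 0`, `Z = 0` (`Matrix.conjTranspose_mul_self_eq_zero`/`Matrix.transpose_mul_self_eq_zero`-type, or entrywise).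
  An eigenvalue `t ≠ 0` with eigenvector `v ≠ 0`: `t (v ⬝ᵥ v) = v ⬝ᵥ (Zᵀ Z v) = (Z v) ⬝ᵥ (Z v) ≥ 0`, so `t > 0`.
* `g4_eig_invariant`: `S (M v) = M (S v) = t M v` (`Matrix.mulVec_mulVec`, `g4_mem_eig`, `Matrix.mulVec_smul`).
* `g4_exists_split_equiv`: `finSumFinEquiv.trans (finCongr _)`.
* `g4_split`: `g4_exists_adapted`, `g4_block_form` for each `A j` (`(A j)ᵀ = - A j`, `E` is closed under `-`); choose; skewness and the sum relation of the blocks from `g4_glue_inj` applied to `Oᵀ (A j)ᵀ O = - Oᵀ A j O`, `Oᵀ (A 0 + A 1) O = Oᵀ A 2 O`.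
-/

set_option autoImplicit false

namespace Claimed.Agent.R282

open Matrix

variable {n p q : ℕ}

section Glue

theorem g4_ix_inl (e : Fin p ⊕ Fin q ≃ Fin n) (k : Fin p) (s : Fin 2) : g4ix e (Sum.inl (k, s)) = (e (Sum.inl k), s) := by
  rfl

theorem g4_ix_inr (e : Fin p ⊕ Fin q ≃ Fin n) (k : Fin q) (s : Fin 2) : g4ix e (Sum.inr (k, s)) = (e (Sum.inr k), s) := by
  rfl

theorem g4m_glue_eq (e : Fin p ⊕ Fin q ≃ Fin n) (A : An2M p) (B : An2M q) :
    g4glue e A B = (Matrix.fromBlocks A 0 0 B).submatrix (g4ix e).symm (g4ix e).symm := rfl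

theorem g4m_glue_ix (e : Fin p ⊕ Fin q ≃ Fin n) (A : An2M p) (B : An2M q) (x y : Ix p ⊕ Ix q) :
    g4glue e A B (g4ix e x) (g4ix e y) = Matrix.fromBlocks A 0 0 B x y := by
  rw [g4m_glue_eq, Matrix.submatrix_apply, Equiv.symm_apply_apply, Equiv.symm_apply_apply]

theorem g4_glue_apply_ll (e : Fin p ⊕ Fin q ≃ Fin n) (A : An2M p) (B : An2M q) (a b : Ix p) :
    g4glue e A B (e (Sum.inl a.1), a.2) (e (Sum.inl b.1), b.2) = A a b := by
  rw [← g4_ix_inl, ← g4_ix_inl, g4m_glue_ix]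
  rfl

theorem g4_glue_apply_rr (e : Fin p ⊕ Fin q ≃ Fin n) (A : An2M p) (B : An2M q) (a b : Ix q) :
    g4glue e A B (e (Sum.inr a.1), a.2) (e (Sum.inr b.1), b.2) = B a b := by
  rw [← g4_ix_inr, ← g4_ix_inr, g4m_glue_ix]
  rfl

theorem g4_glue_apply_lr (e : Fin p ⊕ Fin q ≃ Fin n) (A : An2M p) (B : An2M q) (a : Ix p) (b : Ix q) :
    g4glue e A B (e (Sum.inl a.1), a.2) (e (Sum.inr b.1), b.2) = 0 := by
  rw [← g4_ix_inl, ← g4_ix_inr, g4m_glue_ix]
  rfl

theorem g4_glue_apply_rl (e : Fin p ⊕ Fin q ≃ Fin n) (A : An2M p) (B : An2M q) (a : Ix q) (b : Ix p) :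
    g4glue e A B (e (Sum.inr a.1), a.2) (e (Sum.inl b.1), b.2) = 0 := by
  rw [← g4_ix_inr, ← g4_ix_inl, g4m_glue_ix]
  rfl

theorem g4_glue_mul (e : Fin p ⊕ Fin q ≃ Fin n) (A A' : An2M p) (B B' : An2M q) :
    g4glue e A B * g4glue e A' B' = g4glue e (A * A') (B * B') := by
  rw [g4m_glue_eq, g4m_glue_eq, g4m_glue_eq, Matrix.submatrix_mul_equiv, Matrix.fromBlocks_multiply]
  simp

theorem g4_glue_add (e : Fin p ⊕ Fin q ≃ Fin n) (A A' : An2M p) (B B' : An2M q) :
    g4glue e A B + g4glue e A' B' = g4glue e (A + A') (B + B') := by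
  have h : Matrix.fromBlocks (A + A') 0 0 (B + B')
      = Matrix.fromBlocks A 0 0 B + Matrix.fromBlocks A' 0 0 B' := by
    rw [Matrix.fromBlocks_add]; simp
  rw [g4m_glue_eq, g4m_glue_eq, g4m_glue_eq, h]
  rfl

theorem g4_glue_neg (e : Fin p ⊕ Fin q ≃ Fin n) (A : An2M p) (B : An2M q) :
    - g4glue e A B = g4glue e (-A) (-B) := by
  have h : Matrix.fromBlocks (-A) 0 0 (-B) = -Matrix.fromBlocks A 0 0 B := by
    rw [Matrix.fromBlocks_neg]; simp
  rw [g4m_glue_eq, g4m_glue_eq, h]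
  rfl

theorem g4_glue_smul (e : Fin p ⊕ Fin q ≃ Fin n) (c : ℝ) (A : An2M p) (B : An2M q) :
    c • g4glue e A B = g4glue e (c • A) (c • B) := by
  have h : Matrix.fromBlocks (c • A) 0 0 (c • B) = c • Matrix.fromBlocks A 0 0 B := by
    rw [Matrix.fromBlocks_smul]; simp
  rw [g4m_glue_eq, g4m_glue_eq, h]
  rfl

theorem g4_glue_transpose (e : Fin p ⊕ Fin q ≃ Fin n) (A : An2M p) (B : An2M q) :
    (g4glue e A B).transpose = g4glue e A.transpose B.transpose := by
  rw [g4m_glue_eq, g4m_glue_eq, Matrix.transpose_submatrix, Matrix.fromBlocks_transpose]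
  simp

theorem g4_glue_one (e : Fin p ⊕ Fin q ≃ Fin n) : g4glue e (1 : An2M p) (1 : An2M q) = 1 := by
  rw [g4m_glue_eq, Matrix.fromBlocks_one, Matrix.submatrix_one_equiv]

theorem g4_glue_zero (e : Fin p ⊕ Fin q ≃ Fin n) : g4glue e (0 : An2M p) (0 : An2M q) = 0 := by
  rw [g4m_glue_eq, Matrix.fromBlocks_zero]
  rfl

theorem g4_glue_inj (e : Fin p ⊕ Fin q ≃ Fin n) (A A' : An2M p) (B B' : An2M q) :
    g4glue e A B = g4glue e A' B' ↔ A = A' ∧ B = B' := by
  constructor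
  · intro h
    constructor
    · ext a b
      rw [← g4_glue_apply_ll e A B a b, h, g4_glue_apply_ll]
    · ext a b
      rw [← g4_glue_apply_rr e A B a b, h, g4_glue_apply_rr]
  · rintro ⟨rfl, rfl⟩
    rfl

theorem g4_glue_det (e : Fin p ⊕ Fin q ≃ Fin n) (A : An2M p) (B : An2M q) :
    (g4glue e A B).det = A.det * B.det := by
  rw [g4m_glue_eq, Matrix.det_submatrix_equiv_self, Matrix.det_fromBlocks_zero₁₂]

theorem g4m_ix_cases (e : Fin p ⊕ Fin q ≃ Fin n) (x : Ix n) :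
    (∃ a : Ix p, x = (e (Sum.inl a.1), a.2)) ∨ (∃ a : Ix q, x = (e (Sum.inr a.1), a.2)) := by
  obtain ⟨i, s⟩ := x
  obtain ⟨y, rfl⟩ := e.surjective i
  rcases y with k | k
  · exact Or.inl ⟨(k, s), rfl⟩
  · exact Or.inr ⟨(k, s), rfl⟩

theorem g4_glue_J (e : Fin p ⊕ Fin q ≃ Fin n) (a : Vec p) (b : Vec q) :
    g4glue e (Jmat a) (Jmat b) = Jmat (glueV e a b) := by
  ext x y
  rcases g4m_ix_cases e x with ⟨x, rfl⟩ | ⟨x, rfl⟩ <;> rcases g4m_ix_cases e y with ⟨y, rfl⟩ | ⟨y, rfl⟩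
  · rw [g4_glue_apply_ll]
    simp [Jmat, glueV]
  · rw [g4_glue_apply_lr]
    simp [Jmat]
  · rw [g4_glue_apply_rl]
    simp [Jmat]
  · rw [g4_glue_apply_rr]
    simp [Jmat, glueV]

end Glue

section Orb

theorem g4_glue_so (e : Fin p ⊕ Fin q ≃ Fin n) (g : Matrix.specialOrthogonalGroup (Ix p) ℝ)
    (h : Matrix.specialOrthogonalGroup (Ix q) ℝ) :
    g4glue e g.1 h.1 ∈ Matrix.specialOrthogonalGroup (Ix n) ℝ := by
  refine an2_so_mk _ ?_ ?_
  · rw [g4_glue_transpose, g4_glue_mul, an2_so_mul_transpose, an2_so_mul_transpose, g4_glue_one]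
  · rw [g4_glue_det, an2_so_det, an2_so_det, one_mul]

theorem g4_glue_orb (e : Fin p ⊕ Fin q ≃ Fin n) {A : An2M p} {B : An2M q} {a : Vec p} {b : Vec q}
    (hA : An2Orb A a) (hB : An2Orb B b) : An2Orb (g4glue e A B) (glueV e a b) := by
  obtain ⟨g, rfl⟩ := hA
  obtain ⟨h, rfl⟩ := hB
  refine ⟨⟨_, g4_glue_so e g h⟩, ?_⟩
  show _ = g4glue e g.1 h.1 * Jmat (glueV e a b) * (g4glue e g.1 h.1).transpose
  rw [← g4_glue_J, g4_glue_transpose, g4_glue_mul, g4_glue_mul]

/-- direct sums of moment solutions -/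
theorem g4_moment_glue (e : Fin p ⊕ Fin q ≃ Fin n) (a : Fin 3 → Vec p) (b : Fin 3 → Vec q)
    (ha : MomentD (a 0) (a 1) (a 2)) (hb : MomentD (b 0) (b 1) (b 2)) :
    MomentD (glueV e (a 0) (b 0)) (glueV e (a 1) (b 1)) (glueV e (a 2) (b 2)) := by
  rw [an2_moment_iff] at ha hb ⊢
  obtain ⟨X, Y, hX, hY, hZ⟩ := ha
  obtain ⟨X', Y', hX', hY', hZ'⟩ := hb
  refine ⟨g4glue e X X', g4glue e Y Y', g4_glue_orb e hX hX', g4_glue_orb e hY hY', ?_⟩
  rw [g4_glue_add]
  exact g4_glue_orb e hZ hZ'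

/-- the label of an orbit is unique up to `W(D_p)` -/
theorem g4_orb_unique (X : An2M p) (a b : Vec p) (ha : An2Orb X a) (hb : An2Orb X b) :
    ∃ w : WD p, b = w.act a := by
  obtain ⟨u, hu⟩ := sc_exists_dom a
  obtain ⟨v, hv⟩ := sc_exists_dom b
  have h1 : v.act b = u.act a :=
    an2_unique X (u.act a) (v.act b) hu hv ((an2_orb_weyl X a u).2 ha) ((an2_orb_weyl X b v).2 hb)
  obtain ⟨v', hv'1, hv'2⟩ := sc_WD_inv v
  obtain ⟨w, hw⟩ := sc_WD_mul v' u
  refine ⟨w, ?_⟩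
  rw [hw, ← h1, hv'1]

/-- conjugation by an orthogonal matrix of determinant `-1` flips one axis -/
theorem g4_orb_of_orth (g : An2M p) (hg : g * g.transpose = 1) (c : Vec p) :
    (g.det = 1 → An2Orb (g * Jmat c * g.transpose) c) ∧
    (g.det = -1 → ∀ i₀, An2Orb (g * Jmat c * g.transpose) (Function.update c i₀ (- c i₀))) := by
  constructor
  · intro hd
    exact ⟨⟨g, an2_so_mk g hg hd⟩, rfl⟩
  · intro hd i₀
    have hmem : g * an2D i₀ ∈ Matrix.specialOrthogonalGroup (Ix p) ℝ := by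
      refine an2_so_mk _ ?_ ?_
      · rw [Matrix.transpose_mul, Matrix.mul_assoc, ← Matrix.mul_assoc (an2D i₀), an2D_orth,
          Matrix.one_mul, hg]
      · rw [Matrix.det_mul, hd, an2D_det]; norm_num
    refine ⟨⟨_, hmem⟩, ?_⟩
    show _ = (g * an2D i₀) * Jmat (Function.update c i₀ (- c i₀)) * (g * an2D i₀).transpose
    have h1 := an2D_conj i₀ (Function.update c i₀ (- c i₀))
    rw [Function.update_self, neg_neg, Function.update_idem, Function.update_eq_self] at h1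
    rw [Matrix.transpose_mul, ← h1]
    simp only [Matrix.mul_assoc]

theorem g4_orb_transpose_conj {X : An2M p} {x : Vec p} (h : An2Orb X x)
    (O : Matrix.specialOrthogonalGroup (Ix p) ℝ) : An2Orb (O.1.transpose * X * O.1) x := by
  have hmem : O.1.transpose ∈ Matrix.specialOrthogonalGroup (Ix p) ℝ := by
    refine an2_so_mk _ ?_ ?_
    · rw [Matrix.transpose_transpose, an2_so_transpose_mul]
    · rw [Matrix.det_transpose, an2_so_det]
  have := an2_orb_conj h ⟨_, hmem⟩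
  simpa using this

end Orb

section Adapt

open scoped InnerProductSpace in
theorem g4m_exists_onb (e : Fin p ⊕ Fin q ≃ Fin n) (E : Submodule ℝ (Ix n → ℝ))
    (hE : Module.finrank ℝ E = 2 * p) :
    ∃ b : OrthonormalBasis (Ix n) ℝ (EuclideanSpace ℝ (Ix n)),
      ∀ v : EuclideanSpace ℝ (Ix n), v.ofLp ∈ E ↔
        ∀ (k : Fin q) (s : Fin 2), ⟪b (e (Sum.inr k), s), v⟫_ℝ = 0 := by
  let L := (WithLp.linearEquiv 2 ℝ (Ix n → ℝ))
  let E' : Submodule ℝ (EuclideanSpace ℝ (Ix n)) := E.map L.symm.toLinearMap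
  have hmem : ∀ v : EuclideanSpace ℝ (Ix n), v ∈ E' ↔ v.ofLp ∈ E := by
    intro v
    constructor
    · rintro ⟨w, hw, rfl⟩
      exact hw
    · intro h
      exact ⟨v.ofLp, h, rfl⟩
  have hE' : Module.finrank ℝ E' = 2 * p := by
    rw [← hE]
    exact LinearEquiv.finrank_map_eq L.symm E
  have hcard : Fintype.card (Fin (Module.finrank ℝ E')) = Fintype.card (Ix p) := by
    rw [hE']
    simp [mul_comm]
  let b₁ : OrthonormalBasis (Ix p) ℝ E' :=
    (stdOrthonormalBasis ℝ E').reindex (Fintype.equivOfCardEq hcard)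
  let v : Ix n → EuclideanSpace ℝ (Ix n) := fun x =>
    Sum.elim (fun a => (b₁ a : EuclideanSpace ℝ (Ix n))) (fun _ => 0) ((g4ix e).symm x)
  have hvl : ∀ a : Ix p, v (g4ix e (Sum.inl a)) = b₁ a := by
    intro a
    simp [v]
  let s : Set (Ix n) := Set.range (fun a : Ix p => g4ix e (Sum.inl a))
  have hv : Orthonormal ℝ (s.domRestrict v) := by
    rw [orthonormal_iff_ite]
    rintro ⟨x, a, rfl⟩ ⟨y, a', rfl⟩
    have h1 := (orthonormal_iff_ite.1 b₁.orthonormal) a a'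
    show ⟪v (g4ix e (Sum.inl a)), v (g4ix e (Sum.inl a'))⟫_ℝ = _
    rw [hvl, hvl, ← Submodule.coe_inner, h1]
    by_cases haa : a = a'
    · subst haa
      rw [if_pos rfl, if_pos rfl]
    · rw [if_neg haa, if_neg]
      intro h
      have h2 := congrArg Subtype.val h
      exact haa (Sum.inl_injective ((g4ix e).injective h2))
  obtain ⟨b, hb⟩ := hv.exists_orthonormalBasis_extension_of_card_eq (by simp)
  have hbl : ∀ a : Ix p, b (g4ix e (Sum.inl a)) = b₁ a := fun a => by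
    rw [hb _ ⟨a, rfl⟩, hvl]
  refine ⟨b, fun w => ?_⟩
  rw [← hmem]
  constructor
  · intro hw k t
    have h1 := b₁.sum_repr ⟨w, hw⟩
    have h2 : w = ∑ a, (b₁.repr ⟨w, hw⟩).ofLp a • (b₁ a : EuclideanSpace ℝ (Ix n)) := by
      have h4 := congrArg (Subtype.val) h1
      rw [Submodule.coe_sum] at h4
      exact h4.symm
    rw [h2, inner_sum]
    refine Finset.sum_eq_zero fun a _ => ?_
    rw [inner_smul_right, ← hbl, ← g4_ix_inr]
    rw [(orthonormal_iff_ite.1 b.orthonormal), if_neg (by simp), mul_zero]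
  · intro hw
    have h1 := b.sum_repr w
    rw [← h1]
    refine Submodule.sum_mem _ fun x _ => ?_
    rcases g4m_ix_cases e x with ⟨a, rfl⟩ | ⟨a, rfl⟩
    · rw [← g4_ix_inl]
      refine Submodule.smul_mem _ _ ?_
      have : b (g4ix e (Sum.inl (a.1, a.2))) = b₁ a := hbl a
      rw [this]
      exact (b₁ a).2
    · rw [b.repr_apply_apply, hw, zero_smul]
      exact Submodule.zero_mem _

open scoped InnerProductSpace in
theorem g4m_adapted_orth (e : Fin p ⊕ Fin q ≃ Fin n) (E : Submodule ℝ (Ix n → ℝ))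
    (hE : Module.finrank ℝ E = 2 * p) :
    ∃ O : An2M n, O * O.transpose = 1 ∧ G4Adapted e O E := by
  obtain ⟨b, hb⟩ := g4m_exists_onb e E hE
  let O : An2M n := Matrix.of fun x y => (b y).ofLp x
  have hin : ∀ (y : Ix n) (w : EuclideanSpace ℝ (Ix n)),
      (O.transpose *ᵥ w.ofLp) y = ⟪b y, w⟫_ℝ := by
    intro y w
    rw [PiLp.inner_apply]
    simp only [Matrix.mulVec, dotProduct, O, Matrix.transpose_apply, Matrix.of_apply]
    refine Finset.sum_congr rfl fun x _ => ?_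
    simp [mul_comm]
  have h1 : O.transpose * O = 1 := by
    ext y z
    have h2 := hin y (b z)
    rw [(orthonormal_iff_ite.1 b.orthonormal)] at h2
    rw [Matrix.one_apply, ← h2]
    rfl
  refine ⟨O, mul_eq_one_comm.1 h1, fun v => ?_⟩
  rw [show v = (WithLp.toLp 2 v : EuclideanSpace ℝ (Ix n)).ofLp from rfl, hb]
  simp only [hin]

/-- a rotation adapted to a subspace of even dimension -/
theorem g4_exists_adapted (e : Fin p ⊕ Fin q ≃ Fin n) (E : Submodule ℝ (Ix n → ℝ))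
    (hE : Module.finrank ℝ E = 2 * p) :
    ∃ O : Matrix.specialOrthogonalGroup (Ix n) ℝ, G4Adapted e O.1 E := by
  obtain ⟨O, hO, hA⟩ := g4m_adapted_orth e E hE
  rcases an2_orth_det O hO with hd | hd
  · exact ⟨⟨O, an2_so_mk O hO hd⟩, hA⟩
  · have hn : 0 < n := by
      rcases Nat.eq_zero_or_pos n with rfl | h
      · exfalso
        rw [Matrix.det_isEmpty] at hd
        norm_num at hd
      · exact h
    let i₀ : Fin n := ⟨0, hn⟩
    have hg' : (O * an2D i₀) * (O * an2D i₀).transpose = 1 := by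
      rw [Matrix.transpose_mul, Matrix.mul_assoc, ← Matrix.mul_assoc (an2D i₀), an2D_orth,
        Matrix.one_mul, hO]
    have hd' : (O * an2D i₀).det = 1 := by
      rw [Matrix.det_mul, hd, an2D_det]
      norm_num
    refine ⟨⟨O * an2D i₀, an2_so_mk _ hg' hd'⟩, fun v => ?_⟩
    rw [hA v]
    have hy : ∀ y, ((O * an2D i₀).transpose *ᵥ v) y
        = (if y = (i₀, 1) then -1 else 1) * (O.transpose *ᵥ v) y := by
      intro y
      rw [Matrix.transpose_mul, ← Matrix.mulVec_mulVec]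
      unfold an2D
      rw [Matrix.diagonal_transpose, Matrix.mulVec_diagonal]
    simp only [hy]
    refine forall_congr' fun k => forall_congr' fun t => ?_
    split_ifs <;> simp

/-- `O` maps the first coordinate block into `E` -/
theorem g4m_single_mem (e : Fin p ⊕ Fin q ≃ Fin n) (O : Matrix.specialOrthogonalGroup (Ix n) ℝ)
    (E : Submodule ℝ (Ix n → ℝ)) (hO : G4Adapted e O.1 E) (b : Ix p) :
    O.1 *ᵥ (Pi.single (e (Sum.inl b.1), b.2) 1 : Ix n → ℝ) ∈ E := by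
  rw [hO]
  intro k s
  rw [Matrix.mulVec_mulVec, an2_so_transpose_mul, Matrix.one_mulVec, Pi.single_apply, if_neg]
  intro h
  have := congrArg Prod.fst h
  simp at this

theorem g4m_lower_zero (e : Fin p ⊕ Fin q ≃ Fin n) (O : Matrix.specialOrthogonalGroup (Ix n) ℝ)
    (E : Submodule ℝ (Ix n → ℝ)) (hO : G4Adapted e O.1 E) (M : An2M n)
    (h1 : ∀ v ∈ E, M *ᵥ v ∈ E) (a : Ix q) (b : Ix p) :
    (O.1.transpose * M * O.1) (e (Sum.inr a.1), a.2) (e (Sum.inl b.1), b.2) = 0 := by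
  have h2 := h1 _ (g4m_single_mem e O E hO b)
  rw [hO] at h2
  have h3 := h2 a.1 a.2
  rw [Matrix.mulVec_mulVec, Matrix.mulVec_mulVec, Matrix.mulVec_single_one] at h3
  exact h3

/-- a matrix which preserves `E` together with its transpose is block diagonal in an adapted frame -/
theorem g4_block_form (e : Fin p ⊕ Fin q ≃ Fin n) (O : Matrix.specialOrthogonalGroup (Ix n) ℝ)
    (E : Submodule ℝ (Ix n → ℝ)) (hO : G4Adapted e O.1 E) (M : An2M n)
    (h1 : ∀ v ∈ E, M *ᵥ v ∈ E) (h2 : ∀ v ∈ E, M.transpose *ᵥ v ∈ E) :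
    ∃ (M' : An2M p) (M'' : An2M q), O.1.transpose * M * O.1 = g4glue e M' M'' := by
  refine ⟨Matrix.of fun a b => (O.1.transpose * M * O.1) (e (Sum.inl a.1), a.2) (e (Sum.inl b.1), b.2),
    Matrix.of fun a b => (O.1.transpose * M * O.1) (e (Sum.inr a.1), a.2) (e (Sum.inr b.1), b.2), ?_⟩
  ext x y
  rcases g4m_ix_cases e x with ⟨x, rfl⟩ | ⟨x, rfl⟩ <;> rcases g4m_ix_cases e y with ⟨y, rfl⟩ | ⟨y, rfl⟩
  · rw [g4_glue_apply_ll]; rfl
  · rw [g4_glue_apply_lr]
    have := g4m_lower_zero e O E hO M.transpose h2 y x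
    have e1 : O.1.transpose * M.transpose * O.1 = (O.1.transpose * M * O.1).transpose := by
      rw [Matrix.transpose_mul, Matrix.transpose_mul, Matrix.transpose_transpose, Matrix.mul_assoc]
    rw [e1, Matrix.transpose_apply] at this
    exact this
  · rw [g4_glue_apply_rl]
    exact g4m_lower_zero e O E hO M h1 x y
  · rw [g4_glue_apply_rr]; rfl

/-- a matrix which is scalar on `E` has a scalar first block -/
theorem g4_block_scalar (e : Fin p ⊕ Fin q ≃ Fin n) (O : Matrix.specialOrthogonalGroup (Ix n) ℝ)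
    (E : Submodule ℝ (Ix n → ℝ)) (hO : G4Adapted e O.1 E) (M : An2M n) (M' : An2M p) (M'' : An2M q)
    (hM : O.1.transpose * M * O.1 = g4glue e M' M'') (t : ℝ) (ht : ∀ v ∈ E, M *ᵥ v = t • v) :
    M' = t • 1 := by
  ext a b
  have h1 := ht _ (g4m_single_mem e O E hO b)
  have h2 : (O.1.transpose *ᵥ (M *ᵥ (O.1 *ᵥ (Pi.single (e (Sum.inl b.1), b.2) 1 : Ix n → ℝ))))
        (e (Sum.inl a.1), a.2)
      = (O.1.transpose *ᵥ (t • (O.1 *ᵥ (Pi.single (e (Sum.inl b.1), b.2) 1 : Ix n → ℝ))))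
        (e (Sum.inl a.1), a.2) := by rw [h1]
  rw [Matrix.mulVec_smul, Matrix.mulVec_mulVec, Matrix.mulVec_mulVec, Matrix.mulVec_mulVec,
    an2_so_transpose_mul, Matrix.one_mulVec, Matrix.mulVec_single_one, hM] at h2
  have h3 : (g4glue e M' M'').col (e (Sum.inl b.1), b.2) (e (Sum.inl a.1), a.2) = M' a b :=
    g4_glue_apply_ll e M' M'' a b
  rw [h3] at h2
  rw [h2]
  by_cases hab : a = b
  · subst hab
    simp
  · have : (e (Sum.inl a.1), a.2) ≠ (e (Sum.inl b.1), b.2) := by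
      intro h
      apply hab
      have h4 := congrArg Prod.fst h
      have h5 := congrArg Prod.snd h
      simp only [EmbeddingLike.apply_eq_iff_eq, Sum.inl.injEq] at h4
      exact Prod.ext h4 h5
    simp [Matrix.one_apply, hab, Pi.single_apply, this]

/-- an invariant subspace on which a skew matrix is injective has even dimension -/
theorem g4_even_of_skew_inj (E : Submodule ℝ (Ix n → ℝ)) (M : An2M n) (hM : M.transpose = -M)
    (hinv : ∀ v ∈ E, M *ᵥ v ∈ E) (hinj : ∀ v ∈ E, M *ᵥ v = 0 → v = 0) :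
    Even (Module.finrank ℝ E) := by
  let b := Module.finBasis ℝ E
  let X : Matrix (Fin (Module.finrank ℝ E)) (Fin (Module.finrank ℝ E)) ℝ :=
    Matrix.of fun i j => (b i : Ix n → ℝ) ⬝ᵥ (M *ᵥ (b j : Ix n → ℝ))
  have hX : X.transpose = -X := by
    ext i j
    show (b j : Ix n → ℝ) ⬝ᵥ (M *ᵥ (b i : Ix n → ℝ)) = -((b i : Ix n → ℝ) ⬝ᵥ (M *ᵥ (b j : Ix n → ℝ)))
    rw [Matrix.dotProduct_mulVec, ← Matrix.mulVec_transpose, hM, Matrix.neg_mulVec, neg_dotProduct,
      dotProduct_comm]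
  have hdet : X.det ≠ 0 := by
    intro h0
    obtain ⟨c, hc0, hc⟩ := Matrix.exists_mulVec_eq_zero_iff.2 h0
    let w : E := ∑ j, c j • b j
    have hwc : (w : Ix n → ℝ) = ∑ j, c j • (b j : Ix n → ℝ) := by
      simp [w]
    have hw : ∀ i, (b i : Ix n → ℝ) ⬝ᵥ (M *ᵥ (w : Ix n → ℝ)) = 0 := by
      intro i
      have h1 := congrFun hc i
      rw [hwc, Matrix.mulVec_sum, dotProduct_sum]
      simp only [Matrix.mulVec_smul, dotProduct_smul, smul_eq_mul]
      simp only [Matrix.mulVec, dotProduct, Pi.zero_apply] at h1 ⊢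
      rw [← h1]
      refine Finset.sum_congr rfl fun j _ => ?_
      rw [mul_comm]
      rfl
    have hMw : M *ᵥ (w : Ix n → ℝ) ∈ E := hinv _ w.2
    have hself : (M *ᵥ (w : Ix n → ℝ)) ⬝ᵥ (M *ᵥ (w : Ix n → ℝ)) = 0 := by
      have h2 := b.sum_repr ⟨_, hMw⟩
      have h3 : (M *ᵥ (w : Ix n → ℝ)) = ∑ i, (b.repr ⟨_, hMw⟩ i) • (b i : Ix n → ℝ) := by
        have h4 := congrArg (Subtype.val) h2
        rw [Submodule.coe_sum] at h4
        exact h4.symm
      conv_lhs => lhs; rw [h3]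
      rw [sum_dotProduct]
      refine Finset.sum_eq_zero fun i _ => ?_
      rw [smul_dotProduct, hw i, smul_zero]
    have hMw0 : M *ᵥ (w : Ix n → ℝ) = 0 := dotProduct_self_eq_zero.1 hself
    have hw0 : w = 0 := Subtype.ext (hinj _ w.2 hMw0)
    have hli := b.linearIndependent
    rw [Fintype.linearIndependent_iff] at hli
    exact hc0 (funext (hli c hw0))
  have h1 : X.det = (-1) ^ (Module.finrank ℝ E) * X.det := by
    conv_lhs => rw [← Matrix.det_transpose, hX, Matrix.det_neg, Fintype.card_fin]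
  by_contra hodd
  rw [Nat.not_even_iff_odd] at hodd
  rw [hodd.neg_one_pow] at h1
  apply hdet
  linarith

theorem g4m_herm {S : An2M p} (hS : S.transpose = S) : S.IsHermitian := by
  show S.conjTranspose = S
  rw [Matrix.conjTranspose_eq_transpose_of_trivial, hS]

theorem g4m_eigvec_ne {S : An2M p} (hS : S.IsHermitian) (j : Ix p) :
    (⇑(hS.eigenvectorBasis j) : Ix p → ℝ) ≠ 0 := by
  intro h0
  have h1 := hS.eigenvectorBasis.orthonormal.ne_zero j
  apply h1
  ext i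
  exact congrFun h0 i

theorem g4m_eig_ne_bot {S : An2M p} (hS : S.IsHermitian) (j : Ix p) : g4eig S (hS.eigenvalues j) ≠ ⊥ := by
  intro hb
  have hm : (⇑(hS.eigenvectorBasis j) : Ix p → ℝ) ∈ g4eig S (hS.eigenvalues j) := by
    rw [g4_mem_eig]
    exact hS.mulVec_eigenvectorBasis j
  rw [hb, Submodule.mem_bot] at hm
  exact g4m_eigvec_ne hS j hm

theorem g4_exists_eigenspace (S : An2M p) (hS : S.transpose = S) (hns : ¬ ∃ c : ℝ, S = c • 1) :
    ∃ t : ℝ, g4eig S t ≠ ⊥ ∧ g4eig S t ≠ ⊤ := by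
  have hH := g4m_herm hS
  rcases isEmpty_or_nonempty (Ix p) with he | ⟨⟨j⟩⟩
  · exact absurd ⟨0, Matrix.ext fun a => (he.false a).elim⟩ hns
  · refine ⟨hH.eigenvalues j, g4m_eig_ne_bot hH j, fun ht => hns ⟨hH.eigenvalues j, ?_⟩⟩
    ext a b
    have hm : (Pi.single b 1 : Ix p → ℝ) ∈ g4eig S (hH.eigenvalues j) := by rw [ht]; trivial
    rw [g4_mem_eig] at hm
    have := congrFun hm a
    rw [Matrix.mulVec_single_one] at this
    simpa [Matrix.one_apply, Pi.single_apply, eq_comm] using this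

theorem g4_exists_pos_eig (Z : An2M p) (h0 : Z ≠ 0) :
    ∃ t : ℝ, 0 < t ∧ g4eig (Z.transpose * Z) t ≠ ⊥ := by
  have hS : (Z.transpose * Z).transpose = Z.transpose * Z := by
    rw [Matrix.transpose_mul, Matrix.transpose_transpose]
  have hH := g4m_herm hS
  have hne : hH.eigenvalues ≠ 0 := by
    intro h
    have h1 := hH.eigenvalues_eq_zero_iff.1 h
    apply h0
    have h2 : Z.conjTranspose * Z = 0 := by
      rw [Matrix.conjTranspose_eq_transpose_of_trivial]; exact h1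
    exact Matrix.conjTranspose_mul_self_eq_zero.1 h2
  obtain ⟨j, hj⟩ := Function.ne_iff.1 hne
  have hj' : hH.eigenvalues j ≠ 0 := hj
  refine ⟨hH.eigenvalues j, ?_, g4m_eig_ne_bot hH j⟩
  set v : Ix p → ℝ := ⇑(hH.eigenvectorBasis j) with hv
  have hv0 : v ≠ 0 := g4m_eigvec_ne hH j
  have he : (Z.transpose * Z) *ᵥ v = hH.eigenvalues j • v := hH.mulVec_eigenvectorBasis j
  have h1 : v ⬝ᵥ ((Z.transpose * Z) *ᵥ v) = (Z *ᵥ v) ⬝ᵥ (Z *ᵥ v) := by
    rw [← Matrix.mulVec_mulVec, Matrix.dotProduct_mulVec, Matrix.vecMul_transpose]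
  rw [he, dotProduct_smul, smul_eq_mul] at h1
  have h2 : 0 ≤ (Z *ᵥ v) ⬝ᵥ (Z *ᵥ v) := by
    simp only [dotProduct]
    exact Finset.sum_nonneg fun i _ => mul_self_nonneg _
  have h3 : 0 < v ⬝ᵥ v := by
    have : v ⬝ᵥ v ≠ 0 := fun h => hv0 (dotProduct_self_eq_zero.1 h)
    have h4 : 0 ≤ v ⬝ᵥ v := by
      simp only [dotProduct]
      exact Finset.sum_nonneg fun i _ => mul_self_nonneg _
    exact lt_of_le_of_ne h4 this.symm
  have h5 : 0 ≤ hH.eigenvalues j := by
    by_contra hc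
    push Not at hc
    nlinarith
  exact lt_of_le_of_ne h5 hj'.symm

theorem g4_eig_invariant (S M : An2M p) (hc : M * S = S * M) (t : ℝ) :
    ∀ v ∈ g4eig S t, M *ᵥ v ∈ g4eig S t := by
  intro v hv
  rw [g4_mem_eig] at hv ⊢
  rw [Matrix.mulVec_mulVec, ← hc, ← Matrix.mulVec_mulVec, hv, Matrix.mulVec_smul]

theorem g4_exists_split_equiv (p₁ : ℕ) (h : p₁ ≤ p) : Nonempty (Fin p₁ ⊕ Fin (p - p₁) ≃ Fin p) :=
  ⟨finSumFinEquiv.trans (finCongr (by omega))⟩

/-- splitting of a skew triple along a common invariant subspace of even dimension -/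
theorem g4_split (e : Fin p ⊕ Fin q ≃ Fin n) (A : Fin 3 → An2M n) (hsk : ∀ j, (A j).transpose = - A j)
    (hsum : A 0 + A 1 = A 2) (E : Submodule ℝ (Ix n → ℝ)) (hinv : ∀ j, ∀ v ∈ E, A j *ᵥ v ∈ E)
    (hE : Module.finrank ℝ E = 2 * p) :
    ∃ (O : Matrix.specialOrthogonalGroup (Ix n) ℝ) (A' : Fin 3 → An2M p) (A'' : Fin 3 → An2M q),
      G4Adapted e O.1 E ∧ (∀ j, O.1.transpose * A j * O.1 = g4glue e (A' j) (A'' j)) ∧
      (∀ j, (A' j).transpose = - A' j) ∧ (∀ j, (A'' j).transpose = - A'' j) ∧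
      A' 0 + A' 1 = A' 2 ∧ A'' 0 + A'' 1 = A'' 2 := by
  obtain ⟨O, hO⟩ := g4_exists_adapted e E hE
  have hb : ∀ j, ∃ (M' : An2M p) (M'' : An2M q), O.1.transpose * A j * O.1 = g4glue e M' M'' := by
    intro j
    refine g4_block_form e O E hO (A j) (hinv j) ?_
    intro v hv
    rw [hsk j, Matrix.neg_mulVec]
    exact E.neg_mem (hinv j v hv)
  choose A' A'' hA using hb
  have hskew : ∀ j, g4glue e (A' j).transpose (A'' j).transpose = g4glue e (-(A' j)) (-(A'' j)) := by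
    intro j
    rw [← g4_glue_transpose, ← g4_glue_neg, ← hA j]
    rw [Matrix.transpose_mul, Matrix.transpose_mul, Matrix.transpose_transpose, hsk j]
    simp [Matrix.mul_assoc]
  have hs : g4glue e (A' 0 + A' 1) (A'' 0 + A'' 1) = g4glue e (A' 2) (A'' 2) := by
    rw [← g4_glue_add, ← hA, ← hA, ← hA, ← hsum]
    simp [Matrix.mul_add, Matrix.add_mul]
  exact ⟨O, A', A'', hO, hA, fun j => ((g4_glue_inj e _ _ _ _).1 (hskew j)).1,
    fun j => ((g4_glue_inj e _ _ _ _).1 (hskew j)).2, ((g4_glue_inj e _ _ _ _).1 hs).1,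
    ((g4_glue_inj e _ _ _ _).1 hs).2⟩

end Adapt

end Claimed.Agent.R282
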