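import Claimed.Agent.R282.S34.G.Comb
import Claimed.Agent.R282.S34.G.Mat

/-!
# Row 282, package BP-S34-G, file `Dim`: dimension counts and the norm bounds of the profiles

Architect: helper186.  Statements FROZEN; helper lemmas: prefix `g4d_`.  No paper.
LEAVES: L-G4-D1 (`g4_ker_sum_le`), L-G4-D2 (`g4_finrank_ker_J`, `g4_finrank_ker`), L-G4-D3 (`g4_finrank_so`), L-G4-D4 (`g4_finrank_cen_J`), L-G4-D5 (`g4_finrank_cen_conj`, `g4_stab_bound`),
L-G4-D6 (`g4_ker_bound`, `g4_joint_ker_le_one`), L-G4-D7 (`g4_norm_bounds`).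

ROUTES.
* `g4_ker_sum_le` (abstract).  `d := finrank V`, `K := ⨅ j, ker (T j)`, `κ := finrank K`.   `Φ : V × V × V →ₗ V`, `Φ (a, b, c) = T 0 a + T 1 b - T 2 c`.
  (1) `finrank (range Φ) ≥ d - κ`: the `B`-orthogonal complement of `range Φ` is contained in `K` (if `B (T j u) w = 0` for all `u` then `B u (T j w) = 0` for all `u`, take `u = T j w`, `hd`);
      `LinearMap.BilinForm.finrank_add_finrank_orthogonal` (`B` is reflexive: `hs`) or `LinearMap.BilinForm.finrank_orthogonal` for the nondegenerate form `B` (`hd` ⇒ `B.Nondegenerate`).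
  (2) rank-nullity: `finrank (ker Φ) = 3 d - finrank (range Φ) ≤ 2 d + κ`.
  (3) `N := ker (T 0) × ker (T 1) × ker (T 2)` (`Submodule.prod`) and `Δ := range (v ↦ (v, v, v))` lie in `ker Φ` (`hsum`); `N ⊓ Δ` is the image of `K`, `finrank Δ = d`, `finrank N = ∑ finrank (ker (T j))` (`Submodule.finrank_prod`-type: `Module.finrank_prod` + `Submodule.prodEquivOfIsCompl`-free: use `LinearEquiv` `N ≃ ker × ker × ker`);
      `Submodule.finrank_sup_add_finrank_inf_eq`: `∑ + d = finrank (N ⊔ Δ) + finrank (N ⊓ Δ) ≤ (2 d + κ) + κ`.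
* `g4_finrank_ker_J`.  `J(a) v = 0 ↔ ∀ k, a k ≠ 0 → v (k,0) = 0 ∧ v (k,1) = 0` (`(J v) (k,0) = a k v (k,1)`, `(J v) (k,1) = - a k v (k,0)`).  So `ker ≃ₗ ({i : Ix p // a i.1 = 0} → ℝ)` (restriction; inverse: extension by `0`), `Module.finrank_fintype_fun_eq_card`; the cardinality is `2 * card {k | a k = 0}`; `g4_dsp_zero`.
  ALTERNATIVE: `Matrix.rank` of `J(a)` via `J(a)ᵀ J(a) = diagonal (a²)` (`an2_J_mul`, `Matrix.rank_transpose_mul_self`, `Matrix.rank_diagonal`) + rank-nullity.
* `g4_finrank_ker`.  `A = g J(a) gᵀ`: `v ↦ gᵀ v` is a linear equivalence `ker A ≃ ker J(a)` (`LinearEquiv.finrank_eq`, `Matrix.mulVec_mulVec`, `gᵀ g = 1 = g gᵀ`).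
* `g4_finrank_so`.  The linear map `g4so p → ({x : Ix p × Ix p // x.1 < x.2} → ℝ)` (lexicographic order, or transport to `Fin (p*2)`), `Z ↦ entries`, is injective (`Z b a = - Z a b`, `Z a a = 0` since `2 Z a a = 0`): `LinearMap.finrank_le_finrank_of_injective`; `2 * card {a < b} + r = r²` (`r = card (Ix p) = p * 2`):
  the pairs split in `a < b`, `a = b`, `a > b`; swap is a bijection between the first and the third set.
* `g4_finrank_cen_J` (LOWER bound for the dimension).  Index set `Σ := Fin p ⊕ {x : (Fin p × Fin p) × Bool × Bool // x.1.1 < x.1.2 ∧ a x.1.1 = sgnB x.2.1 * a x.1.2}`.  Basis matrices (2 × 2 blocks `B` at `(k, l)`, `- Bᵀ` at `(l, k)`):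
  for `k`: the block `j = [[0,1],[-1,0]]` at `(k,k)`;   for `(k < l, false, τ)` [`a k = a l`]: `B = 1` (`τ = false`) or `B = j` (`τ = true`);     for `(k < l, true, τ)` [`a k = - a l`]: `B = [[1,0],[0,-1]]` or `B = [[0,1],[1,0]]`.
  `a k j B = a l B j` holds in each case (`j` commutes with `1, j`, anticommutes with the other two).  The linear map `(Σ → ℝ) → g4cen (J a)`, `c ↦ ∑ c_s • E_s`, is injective (the coefficients are read off from the entries `(k,0),(l,0)`, `(k,0),(l,1)`, `(k,1),(l,0)`, `(k,1),(l,1)`: `B = c₁ 1 + c₂ j + c₃ σ_z + c₄ σ_x`).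
  So `finrank ≥ card Σ`.   Counting: `tieCount (dsp a) (dsp a) = ∑_{k,l} 2 ([a k = a l] + [a k = - a l])` (split `Fin 2 × Fin 2`), the diagonal `k = l` gives `2 p + 2 card {a k = 0}`, the off-diagonal part is `2 * 2 * card {k < l ..}` by symmetry; `g4_dsp_zero`.
* `g4_finrank_cen_conj`: `Z ↦ gᵀ Z g` is a linear equivalence `g4cen (g X gᵀ) ≃ g4cen X`.
* `g4_stab_bound`.  `V := g4so p`, `B Z Z' := trace (Zᵀ Z')` (restricted; `B Z Z = ∑ Z²`), `T j Z := A j Z - Z A j` (skew again).  `B (T j Z) Z' = - B Z (T j Z')` (`Matrix.trace_mul_comm`/`trace_mul_cycle`, `(A j)ᵀ = - A j`).  `ker (T j) ≃ g4cen (A j)`, `⨅ ker = ⊥` (`hst`).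
  `g4_ker_sum_le`: `∑ finrank (g4cen (A j)) ≤ finrank (g4so p)`.  Then `g4_finrank_cen_conj`, `g4_finrank_cen_J`, `g4_finrank_so`: `∑ tie ≤ 2 ∑ finrank cen + ∑ z ≤ 2 finrank so + ∑ z`, `2 finrank so + r ≤ r²`.
* `g4_ker_bound`.  `V := Ix p → ℝ`, `B := dotProduct`, `T j := (A j).mulVecLin`; `(A v) ⬝ᵥ w = v ⬝ᵥ (Aᵀ w)` (`Matrix.dotProduct_mulVec`, `Matrix.vecMul_transpose`); `g4_ker_sum_le`, `g4_finrank_ker`, `finrank (Ix p → ℝ) = p * 2`.
* `g4_joint_ker_le_one`.  If `finrank K ≥ 2` take linearly independent `u, v ∈ K` (`exists_linearIndependent_pair_of_one_lt_finrank`-type / `Module.finrank` ≥ 2); `Z := vecMulVec u v - vecMulVec v u` is skew, `≠ 0` (independence), `A j Z = 0 = Z A j` (`A j u = 0`, `u ᵥ* A j = - (A j u) = 0`).  Contradiction with `hst`.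
* `g4_norm_bounds`.  `r := p * 2`, `z j := lvlMult (dsp (a j)) 0`, `κ := finrank K ≤ 1`.  `∑ tie + r ≤ r² + ∑ z` and `∑ z ≤ r + 2 κ` give (1).   If `a 1` has no zero: `z 1 = 0` (`g4_dsp_zero`), `K ≤ ker (A 1)` has finrank `0`, `κ = 0`: (2).
  (3): equality forces `z 0 + z 2 = r`.  If `a 0` has no zero, `z 0 = 0`, `z 2 = r`, `ker (A 2) = ⊤` (`Submodule.eq_top_of_finrank_eq`), `A 2 = 0`, `A 0 = - A 1`, so `Z := A 1` is skew and commutes with the triple: `A 1 = 0`, `z 1 = r > 0`: contradiction.  Same for `a 2` (`A 0 = 0`, `A 1 = A 2`).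
-/

set_option autoImplicit false

namespace Claimed.Agent.R282

open Matrix

variable {n p q : ℕ}

/-- three skew-adjoint operators with `T 0 + T 1 = T 2` -/
theorem g4_ker_sum_le {V : Type} [AddCommGroup V] [Module ℝ V] [FiniteDimensional ℝ V]
    (B : LinearMap.BilinForm ℝ V) (hs : ∀ u v, B u v = B v u) (hd : ∀ v, B v v = 0 → v = 0)
    (T : Fin 3 → V →ₗ[ℝ] V) (hT : ∀ j u v, B (T j u) v = - B u (T j v)) (hsum : T 0 + T 1 = T 2) :
    ∑ j, Module.finrank ℝ (LinearMap.ker (T j))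
      ≤ Module.finrank ℝ V + 2 * Module.finrank ℝ (⨅ j, LinearMap.ker (T j) : Submodule ℝ V) := by
  set K : Submodule ℝ V := ⨅ j, LinearMap.ker (T j) with hK
  let Φ : V × V × V →ₗ[ℝ] V := (T 0).coprod ((T 1).coprod (-(T 2)))
  have hΦ : ∀ a b c, Φ (a, b, c) = T 0 a + (T 1 b + -(T 2 c)) := fun a b c => rfl
  -- (1)
  have h1 : Module.finrank ℝ V ≤ Module.finrank ℝ (LinearMap.range Φ) + Module.finrank ℝ K := by
    have e := LinearMap.BilinForm.finrank_add_finrank_orthogonal' (B := B) (LinearMap.range Φ)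
    have hle : B.orthogonal (LinearMap.range Φ) ≤ K := by
      intro w hw
      rw [hK, Submodule.mem_iInf]
      intro j
      have hj : ∀ u, B (T j u) w = 0 := by
        intro u
        have hmem : T j u ∈ LinearMap.range Φ := by
          fin_cases j
          · exact ⟨(u, 0, 0), by rw [hΦ]; simp⟩
          · exact ⟨(0, u, 0), by rw [hΦ]; simp⟩
          · exact ⟨(0, 0, -u), by rw [hΦ]; simp⟩
        exact (LinearMap.BilinForm.mem_orthogonal_iff.1 hw) _ hmem
      have h3 : ∀ u, B u (T j w) = 0 := by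
        intro u
        have := hj u
        rw [hT] at this
        exact neg_eq_zero.1 this
      exact hd _ (h3 (T j w))
    have := Submodule.finrank_mono hle
    omega
  -- (2)
  have h2 := LinearMap.finrank_range_add_finrank_ker Φ
  have h3 : Module.finrank ℝ (V × V × V) = 3 * Module.finrank ℝ V := by
    rw [Module.finrank_prod, Module.finrank_prod]; ring
  -- (3)
  let Ψ : ((LinearMap.ker (T 0) × LinearMap.ker (T 1) × LinearMap.ker (T 2)) × V) →ₗ[ℝ] V × V × V :=
    (LinearMap.prodMap (LinearMap.ker (T 0)).subtype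
      (LinearMap.prodMap (LinearMap.ker (T 1)).subtype (LinearMap.ker (T 2)).subtype)).coprod
      (LinearMap.prod LinearMap.id (LinearMap.prod LinearMap.id LinearMap.id))
  have hΨ : ∀ (a : LinearMap.ker (T 0)) (b : LinearMap.ker (T 1)) (c : LinearMap.ker (T 2)) (v : V),
      Ψ ((a, b, c), v) = ((a : V) + v, (b : V) + v, (c : V) + v) := fun a b c v => rfl
  have h4 : LinearMap.range Ψ ≤ LinearMap.ker Φ := by
    rintro _ ⟨⟨⟨a, b, c⟩, v⟩, rfl⟩
    rw [hΨ, LinearMap.mem_ker, hΦ]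
    have ha : T 0 (a : V) = 0 := a.2
    have hb : T 1 (b : V) = 0 := b.2
    have hc : T 2 (c : V) = 0 := c.2
    have hv : T 2 v = T 0 v + T 1 v := by rw [← hsum]; rfl
    rw [map_add, map_add, map_add, ha, hb, hc, hv]
    abel
  have h5 : Module.finrank ℝ (LinearMap.ker Ψ) ≤ Module.finrank ℝ K := by
    have hmem : ∀ z : LinearMap.ker Ψ, (z : (LinearMap.ker (T 0) × LinearMap.ker (T 1) × LinearMap.ker (T 2)) × V).2 ∈ K := by
      rintro ⟨⟨⟨a, b, c⟩, v⟩, hz⟩
      rw [LinearMap.mem_ker, hΨ] at hz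
      have e1 : (a : V) + v = 0 := congrArg Prod.fst hz
      have e2 : (b : V) + v = 0 := congrArg (fun z => z.2.1) hz
      have e3 : (c : V) + v = 0 := congrArg (fun z => z.2.2) hz
      show v ∈ K
      rw [hK, Submodule.mem_iInf]
      intro j
      fin_cases j
      · have : v = -(a : V) := by rw [eq_neg_iff_add_eq_zero, add_comm]; exact e1
        rw [this]; exact Submodule.neg_mem _ a.2
      · have : v = -(b : V) := by rw [eq_neg_iff_add_eq_zero, add_comm]; exact e2
        rw [this]; exact Submodule.neg_mem _ b.2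
      · have : v = -(c : V) := by rw [eq_neg_iff_add_eq_zero, add_comm]; exact e3
        rw [this]; exact Submodule.neg_mem _ c.2
    let g : LinearMap.ker Ψ →ₗ[ℝ] K :=
      LinearMap.codRestrict K ((LinearMap.snd ℝ _ V) ∘ₗ (LinearMap.ker Ψ).subtype) hmem
    refine LinearMap.finrank_le_finrank_of_injective (f := g) ?_
    rw [← LinearMap.ker_eq_bot, LinearMap.ker_eq_bot']
    rintro ⟨⟨⟨a, b, c⟩, v⟩, hz⟩ hg
    have hv : v = 0 := congrArg Subtype.val hg
    rw [LinearMap.mem_ker, hΨ] at hz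
    have e1 : (a : V) + v = 0 := congrArg Prod.fst hz
    have e2 : (b : V) + v = 0 := congrArg (fun z => z.2.1) hz
    have e3 : (c : V) + v = 0 := congrArg (fun z => z.2.2) hz
    rw [hv, add_zero] at e1 e2 e3
    apply Subtype.ext
    show ((a, b, c), v) = (((0 : LinearMap.ker (T 0)), (0 : LinearMap.ker (T 1)), (0 : LinearMap.ker (T 2))), (0 : V))
    rw [hv, Subtype.ext (a1 := a) (a2 := 0) e1, Subtype.ext (a1 := b) (a2 := 0) e2,
      Subtype.ext (a1 := c) (a2 := 0) e3]
  have h6 := LinearMap.finrank_range_add_finrank_ker Ψ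
  have h7 : Module.finrank ℝ ((LinearMap.ker (T 0) × LinearMap.ker (T 1) × LinearMap.ker (T 2)) × V)
      = ∑ j, Module.finrank ℝ (LinearMap.ker (T j)) + Module.finrank ℝ V := by
    rw [Module.finrank_prod, Module.finrank_prod, Module.finrank_prod, Fin.sum_univ_three]
    ring
  have h8 := Submodule.finrank_mono h4
  omega

theorem g4d_ker_add_rank (A : An2M p) :
    A.rank + Module.finrank ℝ (LinearMap.ker A.mulVecLin) = p * 2 := by
  have h := LinearMap.finrank_range_add_finrank_ker A.mulVecLin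
  rw [Module.finrank_fintype_fun_eq_card, Fintype.card_prod, Fintype.card_fin, Fintype.card_fin] at h
  exact h

theorem g4_finrank_ker_J (a : Vec p) :
    Module.finrank ℝ (LinearMap.ker (Jmat a).mulVecLin) = lvlMult (g4dsp a) 0 := by
  classical
  have h1 := g4d_ker_add_rank (Jmat a)
  have h2 : (Jmat a).rank = Fintype.card {i : Ix p // a i.1 * a i.1 ≠ 0} := by
    rw [← Matrix.rank_transpose_mul_self, an2_J_transpose, Matrix.neg_mul, an2_J_mul,
      ← Matrix.diagonal_neg, neg_neg, Matrix.rank_diagonal]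
  have h3 : Fintype.card {i : Ix p // a i.1 * a i.1 ≠ 0}
      + (Finset.univ.filter fun i : Ix p => a i.1 = 0).card = p * 2 := by
    rw [Fintype.card_subtype]
    have := Finset.card_filter_add_card_filter_not (s := (Finset.univ : Finset (Ix p)))
      (fun i : Ix p => a i.1 * a i.1 ≠ 0)
    rw [Finset.card_univ, Fintype.card_prod, Fintype.card_fin, Fintype.card_fin] at this
    rw [← this]
    congr 2
    ext i
    simp
  have h4 : (Finset.univ.filter fun i : Ix p => a i.1 = 0)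
      = (Finset.univ.filter fun k : Fin p => a k = 0) ×ˢ (Finset.univ : Finset (Fin 2)) := by
    ext ⟨k, s⟩
    simp
  rw [h4, Finset.card_product, Finset.card_univ, Fintype.card_fin] at h3
  rw [g4_dsp_zero]
  rw [h2] at h1
  rw [Nat.add_left_cancel (h1.trans h3.symm), mul_comm]

theorem g4_finrank_ker (A : An2M p) (a : Vec p) (hA : An2Orb A a) :
    Module.finrank ℝ (LinearMap.ker A.mulVecLin) = lvlMult (g4dsp a) 0 := by
  obtain ⟨g, rfl⟩ := hA
  rw [← g4_finrank_ker_J]
  have h1 := g4d_ker_add_rank (g.1 * Jmat a * g.1.transpose)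
  have h2 := g4d_ker_add_rank (Jmat a)
  have hd : IsUnit g.1.det := by rw [an2_so_det]; exact isUnit_one
  have hd' : IsUnit g.1.transpose.det := by rw [Matrix.det_transpose]; exact hd
  rw [Matrix.rank_mul_eq_left_of_isUnit_det _ _ hd', Matrix.rank_mul_eq_right_of_isUnit_det _ _ hd] at h1
  exact Nat.add_left_cancel (h1.trans h2.symm)

theorem g4d_skew_apply {Z : An2M p} (hZ : Z.transpose = -Z) (a b : Ix p) : Z b a = - Z a b := by
  have := congrFun (congrFun hZ a) b
  simpa using this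

theorem g4d_skew_diag {Z : An2M p} (hZ : Z.transpose = -Z) (a : Ix p) : Z a a = 0 := by
  have := g4d_skew_apply hZ a a
  linarith

theorem g4_finrank_so (p : ℕ) : 2 * Module.finrank ℝ (g4so p) + p * 2 ≤ (p * 2) ^ 2 := by
  let e : Ix p ≃ Fin (p * 2) := finProdFinEquiv
  let L : (g4so p × g4so p × (Ix p → ℝ)) →ₗ[ℝ] An2M p :=
    { toFun := fun z => Matrix.of fun a b =>
        if e a < e b then (z.1 : An2M p) a b else if e b < e a then (z.2.1 : An2M p) a b else z.2.2 a
      map_add' := by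
        intro z w
        ext a b
        simp only [Matrix.of_apply, Matrix.add_apply, Prod.fst_add, Prod.snd_add, Submodule.coe_add,
          Pi.add_apply]
        split_ifs <;> rfl
      map_smul' := by
        intro c z
        ext a b
        simp only [Matrix.of_apply, Matrix.smul_apply, Prod.smul_fst, Prod.smul_snd, Submodule.coe_smul,
          Pi.smul_apply, RingHom.id_apply]
        split_ifs <;> rfl }
  have hL : ∀ z a b, L z a b =
      if e a < e b then (z.1 : An2M p) a b else if e b < e a then (z.2.1 : An2M p) a b else z.2.2 a :=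
    fun z a b => rfl
  have hinj : Function.Injective L := by
    rw [← LinearMap.ker_eq_bot, LinearMap.ker_eq_bot']
    rintro ⟨⟨Z, hZ⟩, ⟨Z', hZ'⟩, D⟩ h0
    have h1 : ∀ a b, L (⟨Z, hZ⟩, ⟨Z', hZ'⟩, D) a b = 0 := fun a b => by rw [h0]; rfl
    have hZ0 : Z = 0 := by
      ext a b
      rcases lt_trichotomy (e a) (e b) with h | h | h
      · have := h1 a b
        rw [hL, if_pos h] at this
        exact this
      · have hab : a = b := e.injective h
        rw [hab]
        exact g4d_skew_diag hZ b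
      · have := h1 b a
        rw [hL, if_pos h] at this
        have h2 : Z b a = 0 := this
        rw [g4d_skew_apply hZ b a, h2]
        simp
    have hZ'0 : Z' = 0 := by
      ext a b
      rcases lt_trichotomy (e a) (e b) with h | h | h
      · have := h1 b a
        rw [hL, if_neg (not_lt.2 h.le), if_pos h] at this
        have h2 : Z' b a = 0 := this
        rw [g4d_skew_apply hZ' b a, h2]
        simp
      · have hab : a = b := e.injective h
        rw [hab]
        exact g4d_skew_diag hZ' b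
      · have := h1 a b
        rw [hL, if_neg (not_lt.2 h.le), if_pos h] at this
        exact this
    have hD : D = 0 := by
      ext a
      have := h1 a a
      rw [hL, if_neg (lt_irrefl _), if_neg (lt_irrefl _)] at this
      exact this
    subst hZ0 hZ'0 hD
    rfl
  have h := LinearMap.finrank_le_finrank_of_injective hinj
  rw [Module.finrank_prod, Module.finrank_prod, Module.finrank_matrix, Module.finrank_fintype_fun_eq_card,
    Module.finrank_self, Fintype.card_prod, Fintype.card_fin, Fintype.card_fin] at h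
  nlinarith

section CenJ

open scoped Classical

/-- sign of the second index -/
def g4dE (s : Fin 2) : ℝ := if s = 0 then 1 else -1

/-- ties of the doubled spectrum, on `Ix p` -/
def g4dTie (a : Vec p) (x y : Ix p) : Prop := g4dE x.2 * a x.1 = g4dE y.2 * a y.1

/-- parameters of the skew centraliser of `J(a)` -/
abbrev G4dPar (a : Vec p) : Type :=
  Fin p ⊕ {x : Ix p × Ix p // x.1.1 < x.2.1 ∧ g4dTie a x.1 x.2}

/-- coefficient functional -/
noncomputable def g4dCf (a : Vec p) (k l : Fin p) (s t : Fin 2) : (G4dPar a → ℝ) →ₗ[ℝ] ℝ :=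
  if h : k < l ∧ g4dTie a (k, s) (l, t) then LinearMap.proj (Sum.inr ⟨((k, s), (l, t)), h⟩) else 0

theorem g4dCf_tie (a : Vec p) (k l : Fin p) (s t : Fin 2) (c : G4dPar a → ℝ) :
    (g4dE s * a k - g4dE t * a l) * g4dCf a k l s t c = 0 := by
  unfold g4dCf
  split_ifs with h
  · have h2 : g4dE s * a k = g4dE t * a l := h.2
    rw [h2, sub_self, zero_mul]
  · simp

/-- the blocks `c₁ 1 + c₂ j + c₃ σ_z + c₄ σ_x` -/
noncomputable def g4dBk (a : Vec p) (k l : Fin p) (s t : Fin 2) : (G4dPar a → ℝ) →ₗ[ℝ] ℝ :=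
  if s = 0 then
    (if t = 0 then g4dCf a k l 0 0 + g4dCf a k l 0 1 else g4dCf a k l 1 1 + g4dCf a k l 1 0)
  else
    (if t = 0 then - g4dCf a k l 1 1 + g4dCf a k l 1 0 else g4dCf a k l 0 0 - g4dCf a k l 0 1)

/-- the block `j` -/
def g4dJ (s t : Fin 2) : ℝ := if s = 0 ∧ t = 1 then 1 else if s = 1 ∧ t = 0 then -1 else 0

/-- the entries -/
noncomputable def g4dEnt (a : Vec p) (x y : Ix p) : (G4dPar a → ℝ) →ₗ[ℝ] ℝ :=
  if x.1 < y.1 then g4dBk a x.1 y.1 x.2 y.2
  else if y.1 < x.1 then - g4dBk a y.1 x.1 y.2 x.2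
  else g4dJ x.2 y.2 • LinearMap.proj (Sum.inl x.1)

/-- the parametrisation -/
noncomputable def g4dZ (a : Vec p) : (G4dPar a → ℝ) →ₗ[ℝ] An2M p :=
  (Matrix.ofLinearEquiv ℝ).toLinearMap ∘ₗ LinearMap.pi fun x => LinearMap.pi fun y => g4dEnt a x y

theorem g4dZ_apply (a : Vec p) (c : G4dPar a → ℝ) (x y : Ix p) : g4dZ a c x y = g4dEnt a x y c := rfl

theorem g4dZ_lt (a : Vec p) (c : G4dPar a → ℝ) {k l : Fin p} (h : k < l) (s t : Fin 2) :
    g4dZ a c (k, s) (l, t) = g4dBk a k l s t c := by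
  rw [g4dZ_apply, g4dEnt, if_pos h]

theorem g4dZ_gt (a : Vec p) (c : G4dPar a → ℝ) {k l : Fin p} (h : l < k) (s t : Fin 2) :
    g4dZ a c (k, s) (l, t) = - g4dBk a l k t s c := by
  rw [g4dZ_apply, g4dEnt, if_neg (not_lt_of_gt h), if_pos h]
  rfl

theorem g4dZ_eq (a : Vec p) (c : G4dPar a → ℝ) (k : Fin p) (s t : Fin 2) :
    g4dZ a c (k, s) (k, t) = g4dJ s t * c (Sum.inl k) := by
  rw [g4dZ_apply, g4dEnt, if_neg (lt_irrefl _), if_neg (lt_irrefl _)]
  rfl

theorem g4dZ_skew (a : Vec p) (c : G4dPar a → ℝ) : (g4dZ a c).transpose = - g4dZ a c := by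
  ext ⟨k, s⟩ ⟨l, t⟩
  show g4dZ a c (l, t) (k, s) = - g4dZ a c (k, s) (l, t)
  rcases lt_trichotomy k l with h | h | h
  · rw [g4dZ_gt a c h, g4dZ_lt a c h]
  · subst h
    rw [g4dZ_eq, g4dZ_eq]
    fin_cases s <;> fin_cases t <;> simp [g4dJ]
  · rw [g4dZ_gt a c h, g4dZ_lt a c h, neg_neg]

theorem g4dBk_00 (a : Vec p) (k l : Fin p) (c : G4dPar a → ℝ) :
    g4dBk a k l 0 0 c = g4dCf a k l 0 0 c + g4dCf a k l 0 1 c := rfl
theorem g4dBk_01 (a : Vec p) (k l : Fin p) (c : G4dPar a → ℝ) :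
    g4dBk a k l 0 1 c = g4dCf a k l 1 1 c + g4dCf a k l 1 0 c := rfl
theorem g4dBk_10 (a : Vec p) (k l : Fin p) (c : G4dPar a → ℝ) :
    g4dBk a k l 1 0 c = - g4dCf a k l 1 1 c + g4dCf a k l 1 0 c := rfl
theorem g4dBk_11 (a : Vec p) (k l : Fin p) (c : G4dPar a → ℝ) :
    g4dBk a k l 1 1 c = g4dCf a k l 0 0 c - g4dCf a k l 0 1 c := rfl

theorem g4dZ_comm (a : Vec p) (c : G4dPar a → ℝ) : g4dZ a c * Jmat a = Jmat a * g4dZ a c := by
  have key : ∀ k l : Fin p,
      (a k - a l) * g4dCf a k l 0 0 c = 0 ∧ (a k + a l) * g4dCf a k l 0 1 c = 0 ∧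
      (a k + a l) * g4dCf a k l 1 0 c = 0 ∧ (a k - a l) * g4dCf a k l 1 1 c = 0 := by
    intro k l
    have h1 := g4dCf_tie a k l 0 0 c
    have h2 := g4dCf_tie a k l 0 1 c
    have h3 := g4dCf_tie a k l 1 0 c
    have h4 := g4dCf_tie a k l 1 1 c
    simp only [g4dE, if_true, one_ne_zero, if_false] at h1 h2 h3 h4
    refine ⟨by linarith, by linarith, by linarith, by linarith⟩
  ext ⟨k, s⟩ ⟨l, t⟩
  obtain ⟨m0, m1⟩ := an2_mul_J_apply a (g4dZ a c) (k, s) l
  rcases lt_trichotomy k l with h | h | h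
  · obtain ⟨h1, h2, h3, h4⟩ := key k l
    fin_cases s <;> fin_cases t
    · show (g4dZ a c * Jmat a) (k, 0) (l, 0) = (Jmat a * g4dZ a c) (k, 0) (l, 0)
      rw [(an2_mul_J_apply a _ _ l).1, (an2_J_mul_apply a _ k _).1, g4dZ_lt a c h, g4dZ_lt a c h,
        g4dBk_01, g4dBk_10]
      linarith
    · show (g4dZ a c * Jmat a) (k, 0) (l, 1) = (Jmat a * g4dZ a c) (k, 0) (l, 1)
      rw [(an2_mul_J_apply a _ _ l).2, (an2_J_mul_apply a _ k _).1, g4dZ_lt a c h, g4dZ_lt a c h,
        g4dBk_00, g4dBk_11]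
      linarith
    · show (g4dZ a c * Jmat a) (k, 1) (l, 0) = (Jmat a * g4dZ a c) (k, 1) (l, 0)
      rw [(an2_mul_J_apply a _ _ l).1, (an2_J_mul_apply a _ k _).2, g4dZ_lt a c h, g4dZ_lt a c h,
        g4dBk_00, g4dBk_11]
      linarith
    · show (g4dZ a c * Jmat a) (k, 1) (l, 1) = (Jmat a * g4dZ a c) (k, 1) (l, 1)
      rw [(an2_mul_J_apply a _ _ l).2, (an2_J_mul_apply a _ k _).2, g4dZ_lt a c h, g4dZ_lt a c h,
        g4dBk_01, g4dBk_10]
      linarith
  · subst h
    fin_cases s <;> fin_cases t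
    · show (g4dZ a c * Jmat a) (k, 0) (k, 0) = (Jmat a * g4dZ a c) (k, 0) (k, 0)
      rw [(an2_mul_J_apply a _ _ k).1, (an2_J_mul_apply a _ k _).1, g4dZ_eq, g4dZ_eq]
      simp [g4dJ]
    · show (g4dZ a c * Jmat a) (k, 0) (k, 1) = (Jmat a * g4dZ a c) (k, 0) (k, 1)
      rw [(an2_mul_J_apply a _ _ k).2, (an2_J_mul_apply a _ k _).1, g4dZ_eq, g4dZ_eq]
      simp [g4dJ]
    · show (g4dZ a c * Jmat a) (k, 1) (k, 0) = (Jmat a * g4dZ a c) (k, 1) (k, 0)
      rw [(an2_mul_J_apply a _ _ k).1, (an2_J_mul_apply a _ k _).2, g4dZ_eq, g4dZ_eq]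
      simp [g4dJ]
    · show (g4dZ a c * Jmat a) (k, 1) (k, 1) = (Jmat a * g4dZ a c) (k, 1) (k, 1)
      rw [(an2_mul_J_apply a _ _ k).2, (an2_J_mul_apply a _ k _).2, g4dZ_eq, g4dZ_eq]
      simp [g4dJ]
  · obtain ⟨h1, h2, h3, h4⟩ := key l k
    fin_cases s <;> fin_cases t
    · show (g4dZ a c * Jmat a) (k, 0) (l, 0) = (Jmat a * g4dZ a c) (k, 0) (l, 0)
      rw [(an2_mul_J_apply a _ _ l).1, (an2_J_mul_apply a _ k _).1, g4dZ_gt a c h, g4dZ_gt a c h,
        g4dBk_01, g4dBk_10]
      linarith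
    · show (g4dZ a c * Jmat a) (k, 0) (l, 1) = (Jmat a * g4dZ a c) (k, 0) (l, 1)
      rw [(an2_mul_J_apply a _ _ l).2, (an2_J_mul_apply a _ k _).1, g4dZ_gt a c h, g4dZ_gt a c h,
        g4dBk_00, g4dBk_11]
      linarith
    · show (g4dZ a c * Jmat a) (k, 1) (l, 0) = (Jmat a * g4dZ a c) (k, 1) (l, 0)
      rw [(an2_mul_J_apply a _ _ l).1, (an2_J_mul_apply a _ k _).2, g4dZ_gt a c h, g4dZ_gt a c h,
        g4dBk_00, g4dBk_11]
      linarith
    · show (g4dZ a c * Jmat a) (k, 1) (l, 1) = (Jmat a * g4dZ a c) (k, 1) (l, 1)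
      rw [(an2_mul_J_apply a _ _ l).2, (an2_J_mul_apply a _ k _).2, g4dZ_gt a c h, g4dZ_gt a c h,
        g4dBk_01, g4dBk_10]
      linarith

theorem g4dZ_inj (a : Vec p) : Function.Injective (g4dZ a) := by
  rw [← LinearMap.ker_eq_bot, LinearMap.ker_eq_bot']
  intro c hc
  have h0 : ∀ x y, g4dZ a c x y = 0 := fun x y => by rw [hc]; rfl
  funext σ
  rcases σ with k | ⟨⟨⟨k, s⟩, ⟨l, t⟩⟩, h⟩
  · have := h0 (k, 0) (k, 1)
    rw [g4dZ_eq] at this
    simpa [g4dJ] using this
  · have hkl : k < l := h.1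
    have e00 := h0 (k, 0) (l, 0)
    have e01 := h0 (k, 0) (l, 1)
    have e10 := h0 (k, 1) (l, 0)
    have e11 := h0 (k, 1) (l, 1)
    rw [g4dZ_lt a c hkl] at e00 e01 e10 e11
    rw [g4dBk_00] at e00
    rw [g4dBk_01] at e01
    rw [g4dBk_10] at e10
    rw [g4dBk_11] at e11
    have hcf : g4dCf a k l s t c = c (Sum.inr ⟨((k, s), (l, t)), h⟩) := by
      unfold g4dCf
      rw [dif_pos h]
      rfl
    show c (Sum.inr ⟨((k, s), (l, t)), h⟩) = 0
    rw [← hcf]
    fin_cases s <;> fin_cases t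
    · show g4dCf a k l 0 0 c = 0
      linarith
    · show g4dCf a k l 0 1 c = 0
      linarith
    · show g4dCf a k l 1 0 c = 0
      linarith
    · show g4dCf a k l 1 1 c = 0
      linarith

theorem g4d_card_le_finrank (a : Vec p) :
    p + (Finset.univ.filter fun x : Ix p × Ix p => x.1.1 < x.2.1 ∧ g4dTie a x.1 x.2).card
      ≤ Module.finrank ℝ (g4cen (Jmat a)) := by
  have hmem : ∀ c, g4dZ a c ∈ g4cen (Jmat a) := fun c => ⟨g4dZ_skew a c, g4dZ_comm a c⟩
  have h := LinearMap.finrank_le_finrank_of_injective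
    (f := LinearMap.codRestrict (g4cen (Jmat a)) (g4dZ a) hmem)
    (fun c c' hcc => g4dZ_inj a (congrArg Subtype.val hcc))
  rw [Module.finrank_fintype_fun_eq_card, Fintype.card_sum, Fintype.card_fin, Fintype.card_subtype] at h
  exact h

theorem g4d_tie_count (a : Vec p) :
    tieCount (g4dsp a) (g4dsp a) = (Finset.univ.filter fun x : Ix p × Ix p => g4dTie a x.1 x.2).card := by
  unfold tieCount
  refine Finset.card_equiv (Equiv.prodCongr finProdFinEquiv.symm finProdFinEquiv.symm) fun x => ?_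
  simp only [Finset.mem_filter, Finset.mem_univ, true_and]
  exact Iff.rfl

theorem g4d_diag_count (a : Vec p) :
    (Finset.univ.filter fun x : Ix p × Ix p => x.1.1 = x.2.1 ∧ g4dTie a x.1 x.2).card
      ≤ 2 * p + lvlMult (g4dsp a) 0 := by
  have hsub : (Finset.univ.filter fun x : Ix p × Ix p => x.1.1 = x.2.1 ∧ g4dTie a x.1 x.2)
      ⊆ (Finset.univ : Finset (Ix p)).image (fun x => (x, x))
        ∪ ((Finset.univ.filter fun k : Fin p => a k = 0) ×ˢ (Finset.univ : Finset (Fin 2))).image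
            (fun x => (x, (x.1, x.2 + 1))) := by
    rintro ⟨⟨k, s⟩, ⟨l, t⟩⟩ hx
    simp only [Finset.mem_filter, Finset.mem_univ, true_and] at hx
    obtain ⟨hkl, htie⟩ := hx
    have hkl' : k = l := hkl
    subst hkl'
    have htie' : g4dE s * a k = g4dE t * a k := htie
    by_cases hst : s = t
    · subst hst
      exact Finset.mem_union_left _ (Finset.mem_image.2 ⟨(k, s), Finset.mem_univ _, rfl⟩)
    · refine Finset.mem_union_right _ (Finset.mem_image.2 ⟨(k, s), ?_, ?_⟩)
      · simp only [Finset.mem_product, Finset.mem_filter, Finset.mem_univ, true_and, and_true]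
        fin_cases s <;> fin_cases t <;> simp [g4dE] at htie' hst ⊢ <;> linarith
      · have : t = s + 1 := by
          fin_cases s <;> fin_cases t <;> simp at hst ⊢
        rw [this]
  have h1 := Finset.card_le_card hsub
  have h2 := Finset.card_union_le ((Finset.univ : Finset (Ix p)).image (fun x => (x, x)))
    (((Finset.univ.filter fun k : Fin p => a k = 0) ×ˢ (Finset.univ : Finset (Fin 2))).image
            (fun x => (x, (x.1, x.2 + 1))))
  have h3 : ((Finset.univ : Finset (Ix p)).image (fun x => (x, x))).card ≤ p * 2 := by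
    refine Finset.card_image_le.trans ?_
    rw [Finset.card_univ, Fintype.card_prod, Fintype.card_fin, Fintype.card_fin]
  have h4 : (((Finset.univ.filter fun k : Fin p => a k = 0) ×ˢ (Finset.univ : Finset (Fin 2))).image
            (fun x : Ix p => (x, (x.1, x.2 + 1)))).card
      ≤ (Finset.univ.filter fun k : Fin p => a k = 0).card * 2 := by
    refine Finset.card_image_le.trans ?_
    rw [Finset.card_product, Finset.card_univ, Fintype.card_fin]
  rw [g4_dsp_zero]
  omega

theorem g4d_count (a : Vec p) :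
    tieCount (g4dsp a) (g4dsp a)
      ≤ 2 * (p + (Finset.univ.filter fun x : Ix p × Ix p => x.1.1 < x.2.1 ∧ g4dTie a x.1 x.2).card)
        + lvlMult (g4dsp a) 0 := by
  rw [g4d_tie_count]
  have hsub : (Finset.univ.filter fun x : Ix p × Ix p => g4dTie a x.1 x.2)
      ⊆ ((Finset.univ.filter fun x : Ix p × Ix p => x.1.1 < x.2.1 ∧ g4dTie a x.1 x.2)
        ∪ (Finset.univ.filter fun x : Ix p × Ix p => x.1.1 < x.2.1 ∧ g4dTie a x.1 x.2).image Prod.swap)
        ∪ (Finset.univ.filter fun x : Ix p × Ix p => x.1.1 = x.2.1 ∧ g4dTie a x.1 x.2) := by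
    rintro ⟨x, y⟩ hx
    simp only [Finset.mem_filter, Finset.mem_univ, true_and] at hx
    rcases lt_trichotomy x.1 y.1 with h | h | h
    · refine Finset.mem_union_left _ (Finset.mem_union_left _ ?_)
      simp only [Finset.mem_filter, Finset.mem_univ, true_and]
      exact ⟨h, hx⟩
    · refine Finset.mem_union_right _ ?_
      simp only [Finset.mem_filter, Finset.mem_univ, true_and]
      exact ⟨h, hx⟩
    · refine Finset.mem_union_left _ (Finset.mem_union_right _ (Finset.mem_image.2 ⟨(y, x), ?_, rfl⟩))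
      simp only [Finset.mem_filter, Finset.mem_univ, true_and]
      exact ⟨h, Eq.symm hx⟩
  have h1 := Finset.card_le_card hsub
  have h2 := Finset.card_union_le
    ((Finset.univ.filter fun x : Ix p × Ix p => x.1.1 < x.2.1 ∧ g4dTie a x.1 x.2)
        ∪ (Finset.univ.filter fun x : Ix p × Ix p => x.1.1 < x.2.1 ∧ g4dTie a x.1 x.2).image Prod.swap)
    (Finset.univ.filter fun x : Ix p × Ix p => x.1.1 = x.2.1 ∧ g4dTie a x.1 x.2)
  have h3 := Finset.card_union_le
    (Finset.univ.filter fun x : Ix p × Ix p => x.1.1 < x.2.1 ∧ g4dTie a x.1 x.2)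
    ((Finset.univ.filter fun x : Ix p × Ix p => x.1.1 < x.2.1 ∧ g4dTie a x.1 x.2).image Prod.swap)
  have h4 : ((Finset.univ.filter fun x : Ix p × Ix p => x.1.1 < x.2.1 ∧ g4dTie a x.1 x.2).image
      Prod.swap).card ≤ _ := Finset.card_image_le
  have h5 := g4d_diag_count a
  omega

/-- generates the equation lemmas of the definitions above in this file (rule 6) -/
theorem g4d_cenJ_eqns_cite : True := by
  have := @g4dE.eq_1
  have := @g4dTie.eq_1
  have := @g4dCf.eq_1
  have := @g4dBk.eq_1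
  have := @g4dJ.eq_1
  have := @g4dEnt.eq_1
  have := @g4dZ.eq_1
  trivial

end CenJ

theorem g4_finrank_cen_J (a : Vec p) :
    tieCount (g4dsp a) (g4dsp a) ≤ 2 * Module.finrank ℝ (g4cen (Jmat a)) + lvlMult (g4dsp a) 0 := by
  have h1 := g4d_count a
  have h2 := g4d_card_le_finrank a
  omega

theorem g4d_cen_conj_le (g X : An2M p) (h1 : g * g.transpose = 1) (h2 : g.transpose * g = 1) :
    Module.finrank ℝ (g4cen (g * X * g.transpose)) ≤ Module.finrank ℝ (g4cen X) := by
  have hmem : ∀ Z : g4cen (g * X * g.transpose),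
      ((LinearMap.mulLeft ℝ g.transpose ∘ₗ LinearMap.mulRight ℝ g) ∘ₗ
        (g4cen (g * X * g.transpose)).subtype) Z ∈ g4cen X := by
    rintro ⟨Z, hZ1, hZ2⟩
    show g.transpose * (Z * g) ∈ g4cen X
    refine ⟨?_, ?_⟩
    · rw [Matrix.transpose_mul, Matrix.transpose_mul, Matrix.transpose_transpose, hZ1]
      simp [Matrix.mul_assoc]
    · calc g.transpose * (Z * g) * X = g.transpose * (Z * (g * X * g.transpose)) * g := by
            simp only [Matrix.mul_assoc, h2, Matrix.mul_one]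
        _ = g.transpose * ((g * X * g.transpose) * Z) * g := by rw [hZ2]
        _ = (g.transpose * g) * X * (g.transpose * (Z * g)) := by simp only [Matrix.mul_assoc]
        _ = X * (g.transpose * (Z * g)) := by rw [h2, Matrix.one_mul]
  refine LinearMap.finrank_le_finrank_of_injective
    (f := LinearMap.codRestrict (g4cen X) _ hmem) ?_
  rw [← LinearMap.ker_eq_bot, LinearMap.ker_eq_bot']
  rintro ⟨Z, hZ⟩ h0
  have h3 : g.transpose * (Z * g) = 0 := congrArg Subtype.val h0
  apply Subtype.ext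
  show Z = 0
  calc Z = (g * g.transpose) * Z * (g * g.transpose) := by rw [h1, Matrix.one_mul, Matrix.mul_one]
    _ = g * (g.transpose * (Z * g)) * g.transpose := by simp only [Matrix.mul_assoc]
    _ = 0 := by rw [h3, Matrix.mul_zero, Matrix.zero_mul]

theorem g4_finrank_cen_conj (g : Matrix.specialOrthogonalGroup (Ix p) ℝ) (X : An2M p) :
    Module.finrank ℝ (g4cen (g.1 * X * g.1.transpose)) = Module.finrank ℝ (g4cen X) := by
  have h1 := an2_so_mul_transpose g
  have h2 := an2_so_transpose_mul g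
  refine le_antisymm (g4d_cen_conj_le g.1 X h1 h2) ?_
  have := g4d_cen_conj_le g.1.transpose (g.1 * X * g.1.transpose)
    (by rw [Matrix.transpose_transpose]; exact h2) (by rw [Matrix.transpose_transpose]; exact h1)
  have e : g.1.transpose * (g.1 * X * g.1.transpose) * g.1.transpose.transpose = X := by
    rw [Matrix.transpose_transpose]
    calc g.1.transpose * (g.1 * X * g.1.transpose) * g.1
        = (g.1.transpose * g.1) * X * (g.1.transpose * g.1) := by simp only [Matrix.mul_assoc]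
      _ = X := by rw [h2, Matrix.one_mul, Matrix.mul_one]
  rwa [e] at this

/-- the trace form on skew matrices -/
noncomputable def g4dB (p : ℕ) : LinearMap.BilinForm ℝ (g4so p) :=
  LinearMap.mk₂ ℝ (fun Z Z' : g4so p => Matrix.trace ((Z : An2M p).transpose * (Z' : An2M p)))
    (by intro a b c; simp [Matrix.add_mul, Matrix.trace_add])
    (by intro r a b; simp [Matrix.trace_smul])
    (by intro a b c; simp [Matrix.mul_add, Matrix.trace_add])
    (by intro r a b; simp [Matrix.trace_smul])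

theorem g4dB_apply (Z Z' : g4so p) :
    g4dB p Z Z' = Matrix.trace ((Z : An2M p).transpose * (Z' : An2M p)) := rfl

/-- `ad A` on skew matrices -/
noncomputable def g4dT (A : An2M p) (hA : A.transpose = -A) : g4so p →ₗ[ℝ] g4so p :=
  LinearMap.codRestrict (g4so p)
    ((LinearMap.mulLeft ℝ A - LinearMap.mulRight ℝ A) ∘ₗ (g4so p).subtype)
    (by
      rintro ⟨Z, hZ⟩
      have hZ' : Z.transpose = -Z := hZ
      show (A * Z - Z * A).transpose = -(A * Z - Z * A)
      rw [Matrix.transpose_sub, Matrix.transpose_mul, Matrix.transpose_mul, hA, hZ']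
      simp)

theorem g4dT_apply (A : An2M p) (hA : A.transpose = -A) (Z : g4so p) :
    (g4dT A hA Z : An2M p) = A * (Z : An2M p) - (Z : An2M p) * A := rfl

/-- generates the equation lemmas of the definitions above in this file (rule 6) -/
theorem g4d_eqns_cite : True := by
  have := @g4dB.eq_1
  have := @g4dT.eq_1
  trivial

theorem g4d_finrank_ker_T (A : An2M p) (hA : A.transpose = -A) :
    Module.finrank ℝ (LinearMap.ker (g4dT A hA)) = Module.finrank ℝ (g4cen A) := by
  rw [← Submodule.finrank_map_subtype_eq (g4so p) (LinearMap.ker (g4dT A hA))]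
  suffices h : (LinearMap.ker (g4dT A hA)).map (g4so p).subtype = g4cen A by rw [h]
  ext Z
  constructor
  · rintro ⟨⟨Z, hZ⟩, hk, rfl⟩
    have h0 : A * Z - Z * A = 0 := congrArg Subtype.val hk
    exact ⟨hZ, (sub_eq_zero.1 h0).symm⟩
  · rintro ⟨hZ1, hZ2⟩
    refine ⟨⟨Z, hZ1⟩, ?_, rfl⟩
    apply Subtype.ext
    show A * Z - Z * A = 0
    rw [hZ2, sub_self]

/-- (4.5) -/
theorem g4_stab_bound (a : Fin 3 → Vec p) (A : Fin 3 → An2M p) (hA : G4Triple a A) (hst : G4NoStab A) :
    ∑ j, tieCount (g4dsp (a j)) (g4dsp (a j)) + p * 2 ≤ (p * 2) ^ 2 + ∑ j, lvlMult (g4dsp (a j)) 0 := by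
  have h := g4_ker_sum_le (g4dB p)
    (by
      intro u v
      rw [g4dB_apply, g4dB_apply, ← Matrix.trace_transpose, Matrix.transpose_mul,
        Matrix.transpose_transpose])
    (by
      intro v hv
      rw [g4dB_apply, ← Matrix.conjTranspose_eq_transpose_of_trivial,
        Matrix.trace_conjTranspose_mul_self_eq_zero_iff] at hv
      exact Subtype.ext hv)
    (fun j => g4dT (A j) (hA.skew j))
    (by
      rintro j ⟨Z, hZ⟩ ⟨Z', hZ'⟩
      have hZt : Z.transpose = -Z := hZ
      rw [g4dB_apply, g4dB_apply, g4dT_apply, g4dT_apply]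
      show Matrix.trace ((A j * Z - Z * A j).transpose * Z') = - Matrix.trace (Z.transpose * (A j * Z' - Z' * A j))
      rw [Matrix.transpose_sub, Matrix.transpose_mul, Matrix.transpose_mul, hA.skew j, hZt]
      simp only [Matrix.neg_mul, Matrix.mul_neg, neg_neg, Matrix.sub_mul, Matrix.mul_sub,
        Matrix.trace_sub, Matrix.trace_neg]
      have c1 : Matrix.trace (A j * Z * Z') = Matrix.trace (Z * (Z' * A j)) := by
        rw [Matrix.mul_assoc, Matrix.trace_mul_comm, Matrix.mul_assoc]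
      rw [c1, Matrix.mul_assoc Z (A j) Z']
      ring)
    (by
      apply LinearMap.ext
      rintro ⟨Z, hZ⟩
      apply Subtype.ext
      show (A 0 * Z - Z * A 0) + (A 1 * Z - Z * A 1) = A 2 * Z - Z * A 2
      rw [← hA.sum, Matrix.add_mul, Matrix.mul_add]
      abel)
  have hbot : (⨅ j, LinearMap.ker (g4dT (A j) (hA.skew j)) : Submodule ℝ (g4so p)) = ⊥ := by
    rw [eq_bot_iff]
    rintro ⟨Z, hZ⟩ hk
    rw [Submodule.mem_iInf] at hk
    have : Z = 0 := hst Z hZ fun j => by
      have h0 : A j * Z - Z * A j = 0 := congrArg Subtype.val (hk j)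
      exact (sub_eq_zero.1 h0).symm
    exact Subtype.ext this
  rw [hbot, finrank_bot, mul_zero, add_zero] at h
  have e : ∀ j, tieCount (g4dsp (a j)) (g4dsp (a j))
      ≤ 2 * Module.finrank ℝ (LinearMap.ker (g4dT (A j) (hA.skew j))) + lvlMult (g4dsp (a j)) 0 := by
    intro j
    obtain ⟨g, hg⟩ := hA.orb j
    have h1 := g4_finrank_cen_J (a j)
    rw [g4d_finrank_ker_T]
    have h2 : Module.finrank ℝ (g4cen (A j)) = Module.finrank ℝ (g4cen (Jmat (a j))) := by
      rw [hg]; exact g4_finrank_cen_conj g _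
    rw [h2]
    exact h1
  have hso := g4_finrank_so p
  have hsum := Finset.sum_le_sum fun j (_ : j ∈ Finset.univ) => e j
  rw [Finset.sum_add_distrib, ← Finset.mul_sum] at hsum
  omega

theorem g4_ker_bound (a : Fin 3 → Vec p) (A : Fin 3 → An2M p) (hA : G4Triple a A) :
    ∑ j, lvlMult (g4dsp (a j)) 0
      ≤ p * 2 + 2 * Module.finrank ℝ (⨅ j, LinearMap.ker (A j).mulVecLin : Submodule ℝ (Ix p → ℝ)) := by
  have h := g4_ker_sum_le (V := Ix p → ℝ) (dotProductBilin ℝ ℝ) (fun u v => dotProduct_comm u v)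
    (fun v hv => dotProduct_self_eq_zero.1 hv) (fun j => (A j).mulVecLin)
    (by
      intro j u v
      show (A j *ᵥ u) ⬝ᵥ v = - (u ⬝ᵥ (A j *ᵥ v))
      rw [dotProduct_comm, Matrix.dotProduct_mulVec, ← Matrix.mulVec_transpose, hA.skew j,
        Matrix.neg_mulVec, neg_dotProduct, dotProduct_comm])
    (by
      show (A 0).mulVecLin + (A 1).mulVecLin = (A 2).mulVecLin
      rw [← hA.sum, Matrix.mulVecLin_add])
  rw [Module.finrank_fintype_fun_eq_card, Fintype.card_prod, Fintype.card_fin, Fintype.card_fin] at h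
  have e : ∀ j, Module.finrank ℝ (LinearMap.ker (A j).mulVecLin) = lvlMult (g4dsp (a j)) 0 :=
    fun j => g4_finrank_ker (A j) (a j) (hA.orb j)
  simp only [e] at h
  exact h

theorem g4_joint_ker_le_one (A : Fin 3 → An2M p) (hsk : ∀ j, (A j).transpose = - A j) (hst : G4NoStab A) :
    Module.finrank ℝ (⨅ j, LinearMap.ker (A j).mulVecLin : Submodule ℝ (Ix p → ℝ)) ≤ 1 := by
  by_contra hcon
  push Not at hcon
  set K : Submodule ℝ (Ix p → ℝ) := ⨅ j, LinearMap.ker (A j).mulVecLin with hK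
  have hpos : 0 < Module.finrank ℝ K := by omega
  obtain ⟨x, hx⟩ := Module.finrank_pos_iff_exists_ne_zero.1 hpos
  obtain ⟨y, hxy⟩ := exists_linearIndependent_pair_of_one_lt_finrank hcon hx
  rw [LinearIndependent.pair_iff] at hxy
  have hmem : ∀ (z : K) (j : Fin 3), A j *ᵥ (z : Ix p → ℝ) = 0 := by
    intro z j
    have h1 : (z : Ix p → ℝ) ∈ (⨅ j, LinearMap.ker (A j).mulVecLin : Submodule ℝ (Ix p → ℝ)) := z.2
    rw [Submodule.mem_iInf] at h1
    exact h1 j
  have hmem' : ∀ (z : K) (j : Fin 3), (z : Ix p → ℝ) ᵥ* A j = 0 := by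
    intro z j
    rw [← Matrix.mulVec_transpose, hsk j, Matrix.neg_mulVec, hmem z j, neg_zero]
  set u : Ix p → ℝ := (x : Ix p → ℝ) with hu
  set v : Ix p → ℝ := (y : Ix p → ℝ) with hv
  have hZ := hst (vecMulVec u v - vecMulVec v u)
    (by
      rw [Matrix.transpose_sub, Matrix.transpose_vecMulVec, Matrix.transpose_vecMulVec]
      abel)
    (by
      intro j
      rw [Matrix.sub_mul, Matrix.mul_sub, Matrix.vecMulVec_mul, Matrix.vecMulVec_mul,
        Matrix.mul_vecMulVec, Matrix.mul_vecMulVec, hmem x j, hmem y j, hmem' x j, hmem' y j]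
      simp)
  have hu0 : u ≠ 0 := fun h => hx (Subtype.ext h)
  obtain ⟨a, ha⟩ := Function.ne_iff.1 hu0
  have ha' : u a ≠ 0 := ha
  have hrel : (v a) • x + (-(u a)) • y = 0 := by
    apply Subtype.ext
    funext b
    have := congrFun (congrFun hZ a) b
    simp only [Matrix.sub_apply, Matrix.vecMulVec_apply, Matrix.zero_apply] at this
    show v a * u b + -(u a) * v b = 0
    linarith
  exact ha' (neg_eq_zero.1 (hxy _ _ hrel).2)

theorem g4d_z_zero (a : Vec p) (h : ∀ k, a k ≠ 0) : lvlMult (g4dsp a) 0 = 0 := by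
  rw [g4_dsp_zero, Finset.filter_false_of_mem (fun k _ => h k), Finset.card_empty]

/-- full kernel means the zero matrix -/
theorem g4d_eq_zero_of_ker (A : An2M p) (h : Module.finrank ℝ (LinearMap.ker A.mulVecLin) = p * 2) :
    A = 0 := by
  have htop : LinearMap.ker A.mulVecLin = ⊤ := by
    apply Submodule.eq_top_of_finrank_eq
    rw [h, Module.finrank_fintype_fun_eq_card, Fintype.card_prod, Fintype.card_fin, Fintype.card_fin]
  have h0 : A.mulVecLin = 0 := LinearMap.ker_eq_top.1 htop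
  have h1 : Matrix.toLin' A = Matrix.toLin' 0 := by
    rw [Matrix.toLin'_apply', h0, map_zero]
  exact Matrix.toLin'.injective h1

/-- the norm bounds of the profile of a triple with trivial skew stabiliser -/
theorem g4_norm_bounds (a : Fin 3 → Vec p) (A : Fin 3 → An2M p) (hA : G4Triple a A) (hst : G4NoStab A) :
    ∑ j, tieCount (g4dsp (a j)) (g4dsp (a j)) ≤ (p * 2) ^ 2 + 2 ∧
    ((∀ k, a 1 k ≠ 0) → ∑ j, tieCount (g4dsp (a j)) (g4dsp (a j)) ≤ (p * 2) ^ 2) ∧
    ((∀ k, a 1 k ≠ 0) → 0 < p → ∑ j, tieCount (g4dsp (a j)) (g4dsp (a j)) = (p * 2) ^ 2 →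
      (∃ k, a 0 k = 0) ∧ ∃ k, a 2 k = 0) := by
  have hS := g4_stab_bound a A hA hst
  have hK := g4_ker_bound a A hA
  have hκ := g4_joint_ker_le_one A hA.skew hst
  have hκ0 : (∀ k, a 1 k ≠ 0) →
      Module.finrank ℝ (⨅ j, LinearMap.ker (A j).mulVecLin : Submodule ℝ (Ix p → ℝ)) = 0 := by
    intro h1
    have hle : (⨅ j, LinearMap.ker (A j).mulVecLin : Submodule ℝ (Ix p → ℝ))
        ≤ LinearMap.ker (A 1).mulVecLin := iInf_le _ 1
    have := Submodule.finrank_mono hle
    rw [g4_finrank_ker (A 1) (a 1) (hA.orb 1), g4d_z_zero _ h1] at this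
    omega
  -- `A 1 = 0` is impossible if `a 1` has no zero and `p > 0`
  have hA1 : (∀ k, a 1 k ≠ 0) → 0 < p → A 1 ≠ 0 := by
    intro h1 hp h0
    have h2 := g4_finrank_ker (A 1) (a 1) (hA.orb 1)
    rw [g4d_z_zero _ h1, h0] at h2
    have h3 : LinearMap.ker (0 : An2M p).mulVecLin = ⊤ := by
      rw [LinearMap.ker_eq_top]
      exact Matrix.mulVecLin_zero
    rw [h3, finrank_top, Module.finrank_fintype_fun_eq_card, Fintype.card_prod, Fintype.card_fin,
      Fintype.card_fin] at h2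
    omega
  refine ⟨by omega, fun h1 => by have := hκ0 h1; omega, ?_⟩
  intro h1 hp heq
  have hk0 := hκ0 h1
  have hz1 := g4d_z_zero _ h1
  rw [heq] at hS
  rw [Fin.sum_univ_three] at hS hK
  rw [hk0] at hK
  constructor
  · by_contra hcon
    push Not at hcon
    have hz0 := g4d_z_zero _ hcon
    have hz2 : lvlMult (g4dsp (a 2)) 0 = p * 2 := by omega
    have hA2 : A 2 = 0 := g4d_eq_zero_of_ker _ (by rw [g4_finrank_ker (A 2) (a 2) (hA.orb 2), hz2])
    have hA0 : A 0 = - A 1 := by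
      have := hA.sum
      rw [hA2] at this
      exact eq_neg_of_add_eq_zero_left this
    refine hA1 h1 hp (hst (A 1) (hA.skew 1) fun j => ?_)
    fin_cases j
    · show A 1 * A 0 = A 0 * A 1
      rw [hA0]; simp
    · rfl
    · show A 1 * A 2 = A 2 * A 1
      rw [hA2]; simp
  · by_contra hcon
    push Not at hcon
    have hz2 := g4d_z_zero _ hcon
    have hz0 : lvlMult (g4dsp (a 0)) 0 = p * 2 := by omega
    have hA0 : A 0 = 0 := g4d_eq_zero_of_ker _ (by rw [g4_finrank_ker (A 0) (a 0) (hA.orb 0), hz0])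
    have hA2 : A 2 = A 1 := by
      have := hA.sum
      rw [hA0, zero_add] at this
      exact this.symm
    refine hA1 h1 hp (hst (A 1) (hA.skew 1) fun j => ?_)
    fin_cases j
    · show A 1 * A 0 = A 0 * A 1
      rw [hA0]; simp
    · rfl
    · show A 1 * A 2 = A 2 * A 1
      rw [hA2]

end Claimed.Agent.R282
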