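import Claimed.Agent.R282.S34.G.Unit
import Claimed.Agent.R282.S34.G.Dim

/-!
# Row 282, package BP-S34-G, file `Forbid`: what the forbidden block decompositions exclude

Architect: helper186.  Glue (proved here) + ONE leaf: L-G4-F3 (`g4_three_blocks`), helper lemmas prefix `g4f_`.

* `g4_no_stab`       : a solution for labels with `G4NoAD` has no commuting skew matrix;
* `g4_three_blocks`  : three orthogonal blocks are impossible under `G4NoDD`;
* `g4_no_inv`        : a block has no proper invariant subspace of even dimension;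
* `g4_commutant`     : the real commutant of a block with invertible moving matrix is scalar.

ROUTE for `g4_three_blocks`.  `b j := resR e (x j)`, `a j := (v j).act (resL e (x j))`.  `sc_WD_one`, `sc_WD_block e (v j) 1` give `u j : WD n` with `(u j).act (x j) = glueV e (a j) (b j)`.
`y := (u 0).act (x 0) + (u 1).act (x 1) - (u 2).act (x 2)` is in `Q(D_n)`: `y = (x 0 + x 1 - x 2) + ((u 0) x 0 - x 0) + ((u 1) x 1 - x 1) - ((u 2) x 2 - x 2)` (`sc_act_sub_mem_Q`, `sc_inQD_add`, `sc_inQD_sub`).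
So all coordinates of `y` are integers and `∑ y = s₁ + s₂ + s₃` is even, `s₁ = ∑ resL e₁ (resL e y)`, `s₂ = ∑ resR e₁ (resL e y)`, `s₃ = ∑ resR e y` (`sc_sum_split` twice); the `s_i` are integers; one of them is even (`Int.even_or_odd`, three odd numbers have an odd sum).
* `s₃` even: `hDD q p ((Equiv.sumComm _ _).trans e) (u 0) (u 1) (u 2)`; `resL` of the swapped splitting is `resR e` (`rfl`), `resR` is `resL e`; `MomentD (a 0) (a 1) (a 2)` from `g4_moment_glue e₁` and `sc_glue_res`.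
* `s₁` even: splitting `e' : Fin p₁ ⊕ Fin (p₂ + q) ≃ Fin n`, `e' := (Equiv.sumCongr (Equiv.refl _) finSumFinEquiv.symm).trans ((Equiv.sumAssoc _ _ _).symm.trans ((Equiv.sumCongr e₁ (Equiv.refl _)).trans e))`;
  `resL e' z = resL e₁ (resL e z)`, `resR e' z = glueV finSumFinEquiv (resR e₁ (resL e z)) (resR e z)` (`funext`, `Fin.addCases`/`finSumFinEquiv.symm` cases); `g4_moment_glue finSumFinEquiv`.
* `s₂` even: the same with `e₁` replaced by `(Equiv.sumComm _ _).trans e₁`.
-/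

set_option autoImplicit false

namespace Claimed.Agent.R282

open Matrix

variable {n p q : ℕ}

/-! ## conjugation by a rotation -/

theorem g4_cj_mul (O : Matrix.specialOrthogonalGroup (Ix n) ℝ) (M N : An2M n) :
    O.1.transpose * (M * N) * O.1 = (O.1.transpose * M * O.1) * (O.1.transpose * N * O.1) := by
  have h := an2_so_mul_transpose O
  calc O.1.transpose * (M * N) * O.1 = O.1.transpose * M * 1 * N * O.1 := by
        simp only [mul_one, mul_assoc]
    _ = (O.1.transpose * M * O.1) * (O.1.transpose * N * O.1) := by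
        rw [← h]; simp only [mul_assoc]

theorem g4_cj_transpose (O : Matrix.specialOrthogonalGroup (Ix n) ℝ) (M : An2M n) :
    (O.1.transpose * M * O.1).transpose = O.1.transpose * M.transpose * O.1 := by
  simp only [Matrix.transpose_mul, Matrix.transpose_transpose, mul_assoc]

theorem g4_cj_neg (O : Matrix.specialOrthogonalGroup (Ix n) ℝ) (M : An2M n) :
    O.1.transpose * (-M) * O.1 = - (O.1.transpose * M * O.1) := by
  simp only [mul_neg, neg_mul]

theorem g4_flip_flip (ε : Fin p → Bool) (c : Vec p) : flipV ε (flipV ε c) = c := by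
  funext i
  simp only [flipV]
  rw [← mul_assoc, sc_sgnB_mul_self, one_mul]

theorem g4_finrank_ix (n : ℕ) : Module.finrank ℝ (Ix n → ℝ) = n * 2 := by
  simp [Ix]

/-! ## no commuting skew matrix -/

theorem g4_no_stab (x : Fin 3 → Vec n) (hAD : G4NoAD (x 0) (x 1) (x 2)) (C : Fin 3 → An2M n)
    (hC : G4Triple x C) : G4NoStab C := by
  intro Z hZ hcomm
  by_contra h0
  obtain ⟨t, ht, hEne⟩ := g4_exists_pos_eig Z h0
  have hZS : Z * (Z.transpose * Z) = (Z.transpose * Z) * Z := by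
    rw [hZ]; simp only [neg_mul, mul_neg, mul_assoc]
  have hCS : ∀ j, C j * (Z.transpose * Z) = (Z.transpose * Z) * C j := by
    intro j
    rw [hZ]
    simp only [neg_mul, mul_neg]
    rw [← mul_assoc, ← hcomm j, mul_assoc, ← hcomm j, mul_assoc]
  have invZ := g4_eig_invariant (Z.transpose * Z) Z hZS t
  have invC := fun j => g4_eig_invariant (Z.transpose * Z) (C j) (hCS j) t
  have hinj : ∀ v ∈ g4eig (Z.transpose * Z) t, Z *ᵥ v = 0 → v = 0 := by
    intro v hv hzv
    have h := (g4_mem_eig _ t v).1 hv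
    rw [← Matrix.mulVec_mulVec, hzv, Matrix.mulVec_zero] at h
    exact (smul_eq_zero.1 h.symm).resolve_left ht.ne'
  obtain ⟨p', hp'⟩ := g4_even_of_skew_inj _ Z hZ invZ hinj
  have hpos : 0 < p' := by
    rcases Nat.eq_zero_or_pos p' with h | h
    · exfalso
      apply hEne
      apply Submodule.finrank_eq_zero.1
      rw [hp', h]
    · exact h
  have hle : p' ≤ n := by
    have h1 := Submodule.finrank_le (g4eig (Z.transpose * Z) t)
    rw [g4_finrank_ix, hp'] at h1
    omega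
  obtain ⟨e⟩ := g4_exists_split_equiv p' hle
  obtain ⟨O, C', C'', hO, hblk, hsk', hsk'', hsum', hsum''⟩ :=
    g4_split e C hC.skew hC.sum _ invC (by rw [hp']; ring)
  obtain ⟨Z', Z'', hZblk⟩ := g4_block_form e O _ hO Z invZ (by
    intro v hv
    have h : Z.transpose *ᵥ v = -(Z *ᵥ v) := by rw [hZ, Matrix.neg_mulVec]
    rw [h]
    exact Submodule.neg_mem _ (invZ v hv))
  -- properties of `Z'`
  have hZ't : Z'.transpose = -Z' := by
    have h := g4_cj_transpose O Z
    rw [hZ, g4_cj_neg, hZblk, g4_glue_transpose, g4_glue_neg] at h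
    exact ((g4_glue_inj e _ _ _ _).1 h).1
  have hSblk : O.1.transpose * (Z.transpose * Z) * O.1 = g4glue e (Z'.transpose * Z') (Z''.transpose * Z'') := by
    rw [g4_cj_mul, ← g4_cj_transpose, hZblk, g4_glue_transpose, g4_glue_mul]
  have hZ'sq : Z'.transpose * Z' = t • 1 :=
    g4_block_scalar e O _ hO _ _ _ hSblk t (fun v hv => (g4_mem_eig _ t v).1 hv)
  have hZ'c : ∀ j, Z' * C' j = C' j * Z' := by
    intro j
    have h := congrArg (fun M => O.1.transpose * M * O.1) (hcomm j)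
    simp only [g4_cj_mul, hZblk, hblk, g4_glue_mul] at h
    exact ((g4_glue_inj e _ _ _ _).1 h).1
  -- the complex structure
  have hs : Real.sqrt t ≠ 0 := (Real.sqrt_pos.2 ht).ne'
  have hI1 : ((Real.sqrt t)⁻¹ • Z').transpose = -((Real.sqrt t)⁻¹ • Z') := by
    rw [Matrix.transpose_smul, hZ't, smul_neg]
  have hI2 : ((Real.sqrt t)⁻¹ • Z') * ((Real.sqrt t)⁻¹ • Z') = -1 := by
    have h1 : Z' * Z' = -(t • (1 : An2M p')) := by
      rw [← hZ'sq, hZ't, neg_mul, neg_neg]
    rw [smul_mul_assoc, mul_smul_comm, smul_smul, h1, smul_neg, smul_smul]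
    have h2 : (Real.sqrt t)⁻¹ * (Real.sqrt t)⁻¹ * t = 1 := by
      have h3 : Real.sqrt t * Real.sqrt t = t := Real.mul_self_sqrt ht.le
      field_simp
      nlinarith [h3]
    rw [h2, one_smul]
  have hIc : ∀ j, ((Real.sqrt t)⁻¹ • Z') * C' j = C' j * ((Real.sqrt t)⁻¹ • Z') := by
    intro j
    rw [smul_mul_assoc, mul_smul_comm, hZ'c j]
  obtain ⟨c, ε, hMA, horb'⟩ := g4_unitary_block' C' hsk' hsum' _ hI1 hI2 hIc
  choose d hd using fun j => an2_normal_so (C'' j) (hsk'' j)
  have hMD : MomentD (d 0) (d 1) (d 2) := (g4_moment_iff d).2 ⟨C'', ⟨hd, hsum''⟩⟩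
  have hu : ∀ j, ∃ u : WD n, glueV e (flipV ε (c j)) (d j) = u.act (x j) := by
    intro j
    apply g4_orb_unique (O.1.transpose * C j * O.1)
    · exact g4_orb_transpose_conj (hC.orb j) O
    · rw [hblk j]
      exact g4_glue_orb e (horb' j) (hd j)
  choose u hu using hu
  apply hAD p' (n - p') e (u 0) (u 1) (u 2) ε hpos
  · rw [← hu 0, ← hu 1, ← hu 2]
    simp only [sc_resL_glue, g4_flip_flip]
    exact hMA
  · rw [← hu 0, ← hu 1, ← hu 2]
    simp only [sc_resR_glue]
    exact hMD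

/-- the direct sum of two block solutions -/
theorem g4_triple_glue (e : Fin p ⊕ Fin q ≃ Fin n) (x : Fin 3 → Vec n) (A : Fin 3 → An2M p)
    (B : Fin 3 → An2M q) (hA : G4Triple (fun j => resL e (x j)) A)
    (hB : G4Triple (fun j => resR e (x j)) B) : G4Triple x (fun j => g4glue e (A j) (B j)) := by
  refine ⟨fun j => ?_, ?_⟩
  · have h := g4_glue_orb e (hA.orb j) (hB.orb j)
    rwa [sc_glue_res] at h
  · rw [g4_glue_add, hA.sum, hB.sum]

theorem g4_no_stab_block (e : Fin p ⊕ Fin q ≃ Fin n) (x : Fin 3 → Vec n)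
    (hAD : G4NoAD (x 0) (x 1) (x 2)) (A : Fin 3 → An2M p) (B : Fin 3 → An2M q)
    (hA : G4Triple (fun j => resL e (x j)) A) (hB : G4Triple (fun j => resR e (x j)) B) :
    G4NoStab A ∧ G4NoStab B := by
  have hst := g4_no_stab x hAD _ (g4_triple_glue e x A B hA hB)
  constructor
  · intro Z hZ hc
    have h := hst (g4glue e Z 0) (by rw [g4_glue_transpose, g4_glue_neg, hZ]; simp) (by
      intro j
      simp only [g4_glue_mul, hc j, zero_mul, mul_zero])
    rw [← g4_glue_zero e] at h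
    exact ((g4_glue_inj e _ _ _ _).1 h).1
  · intro Z hZ hc
    have h := hst (g4glue e 0 Z) (by rw [g4_glue_transpose, g4_glue_neg, hZ]; simp) (by
      intro j
      simp only [g4_glue_mul, hc j, zero_mul, mul_zero])
    rw [← g4_glue_zero e] at h
    exact ((g4_glue_inj e _ _ _ _).1 h).2

/-! ## three orthogonal blocks (leaf L-G4-F3) -/

theorem g4f_assoc {p₁ p₂ : ℕ} (e : Fin p ⊕ Fin q ≃ Fin n) (e₁ : Fin p₁ ⊕ Fin p₂ ≃ Fin p) :
    ∃ e' : Fin p₁ ⊕ Fin (p₂ + q) ≃ Fin n, (∀ z : Vec n, resL e' z = resL e₁ (resL e z)) ∧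
      (∀ z : Vec n, resL finSumFinEquiv (resR e' z) = resR e₁ (resL e z)) ∧
      (∀ z : Vec n, resR finSumFinEquiv (resR e' z) = resR e z) := by
  refine ⟨(Equiv.sumCongr (Equiv.refl _) finSumFinEquiv.symm).trans
    ((Equiv.sumAssoc _ _ _).symm.trans ((Equiv.sumCongr e₁ (Equiv.refl _)).trans e)), ?_, ?_, ?_⟩
  · intro z
    funext i
    simp [resL]
  · intro z
    funext i
    simp only [resL, resR, Equiv.trans_apply, Equiv.sumCongr_apply, Sum.map_inr,
      Equiv.symm_apply_apply]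
    simp
  · intro z
    funext i
    simp only [resR, Equiv.trans_apply, Equiv.sumCongr_apply, Sum.map_inr,
      Equiv.symm_apply_apply]
    simp

theorem g4f_moment_of_res (e : Fin p ⊕ Fin q ≃ Fin n) (z : Fin 3 → Vec n)
    (hL : MomentD (resL e (z 0)) (resL e (z 1)) (resL e (z 2)))
    (hR : MomentD (resR e (z 0)) (resR e (z 1)) (resR e (z 2))) :
    MomentD (z 0) (z 1) (z 2) := by
  have h := g4_moment_glue e (fun j => resL e (z j)) (fun j => resR e (z j)) hL hR
  simpa only [sc_glue_res] using h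

theorem g4f_int_sum {m : ℕ} (w : Vec m) (hw : ∀ i, ∃ k : ℤ, w i = k) : ∃ k : ℤ, ∑ i, w i = k := by
  choose k hk using hw
  exact ⟨∑ i, k i, by rw [Int.cast_sum]; exact Finset.sum_congr rfl fun i _ => hk i⟩

theorem g4f_core (z : Fin 3 → Vec n) (hy : InQD (z 0 + z 1 - z 2))
    (H : ∀ (p q : ℕ) (e : Fin p ⊕ Fin q ≃ Fin n), 0 < p → 0 < q →
      MomentD (resL e (z 0)) (resL e (z 1)) (resL e (z 2)) →
      MomentD (resR e (z 0)) (resR e (z 1)) (resR e (z 2)) →
      InQD (resL e (z 0 + z 1 - z 2)) → False)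
    {p₁ p₂ : ℕ} (e : Fin p ⊕ Fin q ≃ Fin n)
    (e₁ : Fin p₁ ⊕ Fin p₂ ≃ Fin p) (h1 : 0 < p₁) (h2 : 0 < p₂) (hq : 0 < q)
    (m1 : MomentD (resL e₁ (resL e (z 0))) (resL e₁ (resL e (z 1))) (resL e₁ (resL e (z 2))))
    (m2 : MomentD (resR e₁ (resL e (z 0))) (resR e₁ (resL e (z 1))) (resR e₁ (resL e (z 2))))
    (m3 : MomentD (resR e (z 0)) (resR e (z 1)) (resR e (z 2))) : False := by
  obtain ⟨hint, k, hk⟩ := hy
  set y : Vec n := z 0 + z 1 - z 2 with hydef
  have hp : p = p₁ + p₂ := by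
    have := Fintype.card_congr e₁
    simpa using this.symm
  obtain ⟨k1, hk1⟩ := g4f_int_sum (resL e₁ (resL e y)) fun i => hint _
  obtain ⟨k2, hk2⟩ := g4f_int_sum (resR e₁ (resL e y)) fun i => hint _
  obtain ⟨k3, hk3⟩ := g4f_int_sum (resR e y) fun i => hint _
  have hsum : k1 + k2 + k3 = 2 * k := by
    have h := hk
    rw [sc_sum_split e y, sc_sum_split e₁ (resL e y), hk1, hk2, hk3] at h
    exact_mod_cast h
  have hcases : (∃ r, k1 = 2 * r) ∨ (∃ r, k2 = 2 * r) ∨ (∃ r, k3 = 2 * r) := by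
    rcases Int.even_or_odd' k1 with ⟨r1, h | h⟩
    · exact Or.inl ⟨r1, h⟩
    rcases Int.even_or_odd' k2 with ⟨r2, h' | h'⟩
    · exact Or.inr (Or.inl ⟨r2, h'⟩)
    rcases Int.even_or_odd' k3 with ⟨r3, h'' | h''⟩
    · exact Or.inr (Or.inr ⟨r3, h''⟩)
    omega
  rcases hcases with ⟨r, hr⟩ | ⟨r, hr⟩ | ⟨r, hr⟩
  · obtain ⟨e', hL, hRL, hRR⟩ := g4f_assoc e e₁
    refine H p₁ (p₂ + q) e' h1 (by omega) ?_ ?_ ⟨fun i => hint _, r, ?_⟩
    · rw [hL, hL, hL]; exact m1
    · apply g4f_moment_of_res finSumFinEquiv (fun j => resR e' (z j))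
      · simp only [hRL]; exact m2
      · simp only [hRR]; exact m3
    · rw [hL, hk1, hr]; push_cast; ring
  · obtain ⟨e', hL, hRL, hRR⟩ := g4f_assoc e ((Equiv.sumComm _ _).trans e₁)
    refine H p₂ (p₁ + q) e' h2 (by omega) ?_ ?_ ⟨fun i => hint _, r, ?_⟩
    · rw [hL, hL, hL]; exact m2
    · apply g4f_moment_of_res finSumFinEquiv (fun j => resR e' (z j))
      · simp only [hRL]; exact m1
      · simp only [hRR]; exact m3
    · rw [hL]
      refine Eq.trans ?_ (show ((k2 : ℤ) : ℝ) = 2 * (r : ℝ) by rw [hr]; push_cast; ring)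
      exact hk2
  · refine H q p ((Equiv.sumComm _ _).trans e) hq (by omega) m3 ?_ ⟨fun i => hint _, r, ?_⟩
    · exact g4f_moment_of_res e₁ (fun j => resL e (z j)) m1 m2
    · refine Eq.trans ?_ (show ((k3 : ℤ) : ℝ) = 2 * (r : ℝ) by rw [hr]; push_cast; ring)
      exact hk3

theorem g4_three_blocks (x : Fin 3 → Vec n) (wt : ∀ j, IsWtD (x j)) (hQ : InQD (x 0 + x 1 - x 2))
    (hDD : G4NoDD (x 0) (x 1) (x 2)) {p₁ p₂ : ℕ} (e : Fin p ⊕ Fin q ≃ Fin n)
    (e₁ : Fin p₁ ⊕ Fin p₂ ≃ Fin p) (h1 : 0 < p₁) (h2 : 0 < p₂) (hq : 0 < q) (v : Fin 3 → WD p)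
    (m1 : MomentD (resL e₁ ((v 0).act (resL e (x 0)))) (resL e₁ ((v 1).act (resL e (x 1))))
      (resL e₁ ((v 2).act (resL e (x 2)))))
    (m2 : MomentD (resR e₁ ((v 0).act (resL e (x 0)))) (resR e₁ ((v 1).act (resL e (x 1))))
      (resR e₁ ((v 2).act (resL e (x 2)))))
    (m3 : MomentD (resR e (x 0)) (resR e (x 1)) (resR e (x 2))) : False := by
  obtain ⟨w1, hw1⟩ := sc_WD_one (n := q)
  choose u hu using fun j => sc_WD_block e (v j) w1
  have hz : ∀ j, (u j).act (x j) = glueV e ((v j).act (resL e (x j))) (resR e (x j)) := by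
    intro j
    rw [hu j, hw1]
  have hy : InQD ((u 0).act (x 0) + (u 1).act (x 1) - (u 2).act (x 2)) := by
    have e0 : (u 0).act (x 0) + (u 1).act (x 1) - (u 2).act (x 2)
        = (x 0 + x 1 - x 2) + ((u 0).act (x 0) - x 0) + ((u 1).act (x 1) - x 1)
          - ((u 2).act (x 2) - x 2) := by abel
    rw [e0]
    exact sc_inQD_sub _ _ (sc_inQD_add _ _ (sc_inQD_add _ _ hQ (sc_act_sub_mem_Q _ _ (wt 0)))
      (sc_act_sub_mem_Q _ _ (wt 1))) (sc_act_sub_mem_Q _ _ (wt 2))
  refine g4f_core (fun j => (u j).act (x j)) hy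
    (fun p' q' e' hp' hq' a b c => hDD p' q' e' (u 0) (u 1) (u 2) hp' hq' a b c) e e₁ h1 h2 hq ?_ ?_ ?_
  · simp only [hz, sc_resL_glue]; exact m1
  · simp only [hz, sc_resL_glue]; exact m2
  · simp only [hz, sc_resR_glue]; exact m3

/-! ## no invariant subspace of even dimension -/

theorem g4_no_inv (x : Fin 3 → Vec n) (wt : ∀ j, IsWtD (x j)) (hQ : InQD (x 0 + x 1 - x 2))
    (hDD : G4NoDD (x 0) (x 1) (x 2)) (e : Fin p ⊕ Fin q ≃ Fin n) (hq : 0 < q) (A : Fin 3 → An2M p)
    (hA : G4Triple (fun j => resL e (x j)) A)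
    (mQ : MomentD (resR e (x 0)) (resR e (x 1)) (resR e (x 2)))
    (E : Submodule ℝ (Ix p → ℝ)) (hinv : ∀ j, ∀ v ∈ E, A j *ᵥ v ∈ E) (hbot : E ≠ ⊥) (htop : E ≠ ⊤)
    (hev : Even (Module.finrank ℝ E)) : False := by
  obtain ⟨p₁, hp₁⟩ := hev
  have hpos : 0 < p₁ := by
    rcases Nat.eq_zero_or_pos p₁ with h | h
    · exfalso
      apply hbot
      apply Submodule.finrank_eq_zero.1
      rw [hp₁, h]
    · exact h
  have hlt : p₁ < p := by
    have h1 := Submodule.finrank_lt htop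
    rw [g4_finrank_ix, hp₁] at h1
    omega
  obtain ⟨e₁⟩ := g4_exists_split_equiv p₁ hlt.le
  obtain ⟨O, A', A'', -, hblk, hsk', hsk'', hsum', hsum''⟩ :=
    g4_split e₁ A hA.skew hA.sum E hinv (by rw [hp₁]; ring)
  choose a' ha' using fun j => an2_normal_so (A' j) (hsk' j)
  choose a'' ha'' using fun j => an2_normal_so (A'' j) (hsk'' j)
  have hv : ∀ j, ∃ v : WD p, glueV e₁ (a' j) (a'' j) = v.act (resL e (x j)) := by
    intro j
    apply g4_orb_unique (O.1.transpose * A j * O.1)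
    · exact g4_orb_transpose_conj (hA.orb j) O
    · rw [hblk j]
      exact g4_glue_orb e₁ (ha' j) (ha'' j)
  choose v hv using hv
  apply g4_three_blocks x wt hQ hDD e e₁ hpos (by omega) hq v _ _ mQ
  · rw [← hv 0, ← hv 1, ← hv 2]
    simp only [sc_resL_glue]
    exact (g4_moment_iff a').2 ⟨A', ⟨ha', hsum'⟩⟩
  · rw [← hv 0, ← hv 1, ← hv 2]
    simp only [sc_resR_glue]
    exact (g4_moment_iff a'').2 ⟨A'', ⟨ha'', hsum''⟩⟩

/-! ## the real commutant -/

theorem g4_commutant (x : Fin 3 → Vec n) (wt : ∀ j, IsWtD (x j)) (hQ : InQD (x 0 + x 1 - x 2))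
    (hDD : G4NoDD (x 0) (x 1) (x 2)) (e : Fin p ⊕ Fin q ≃ Fin n) (hq : 0 < q) (A : Fin 3 → An2M p)
    (hA : G4Triple (fun j => resL e (x j)) A) (hst : G4NoStab A)
    (mQ : MomentD (resR e (x 0)) (resR e (x 1)) (resR e (x 2)))
    (h1 : ∀ k, resL e (x 1) k ≠ 0) (M : An2M p) (hM : ∀ j, M * A j = A j * M) :
    ∃ c : ℝ, M = c • 1 := by
  -- the transpose commutes as well
  have hMt : ∀ j, M.transpose * A j = A j * M.transpose := by
    intro j
    have h := congrArg Matrix.transpose (hM j)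
    rw [Matrix.transpose_mul, Matrix.transpose_mul, hA.skew j] at h
    simp only [neg_mul, mul_neg, neg_inj] at h
    exact h.symm
  -- the skew part vanishes
  have hsym : M.transpose = M := by
    have h := hst (M - M.transpose) (by
      rw [Matrix.transpose_sub, Matrix.transpose_transpose, neg_sub]) (by
      intro j
      rw [sub_mul, mul_sub, hM j, hMt j])
    exact (sub_eq_zero.1 h).symm
  by_contra hns
  obtain ⟨t, hbot, htop⟩ := g4_exists_eigenspace M hsym hns
  have hinv : ∀ j, ∀ v ∈ g4eig M t, A j *ᵥ v ∈ g4eig M t :=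
    fun j => g4_eig_invariant M (A j) (hM j).symm t
  -- the moving matrix is injective
  have hker : LinearMap.ker (A 1).mulVecLin = ⊥ := by
    apply Submodule.finrank_eq_zero.1
    rw [g4_finrank_ker (A 1) _ (hA.orb 1), g4_dsp_zero]
    have : (Finset.univ.filter fun k => resL e (x 1) k = 0) = ∅ := by
      apply Finset.filter_eq_empty_iff.2
      intro k _
      exact h1 k
    rw [this]
    simp
  have hev := g4_even_of_skew_inj (g4eig M t) (A 1) (hA.skew 1) (hinv 1) (by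
    intro v _ hv
    have : v ∈ LinearMap.ker (A 1).mulVecLin := by
      rw [LinearMap.mem_ker, Matrix.mulVecLin_apply, hv]
    rw [hker] at this
    exact (Submodule.mem_bot ℝ).1 this)
  exact g4_no_inv x wt hQ hDD e hq A hA mQ _ hinv hbot htop hev

end Claimed.Agent.R282
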