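import Claimed.Agent.R282.S34.G.Mat

/-!
# Row 282, package BP-S34-G, file `Unit`: complex structures, unitary blocks, complexification

Architect: helper186.  Statements FROZEN; helper lemmas: prefix `g4u_`.  No paper.
LEAVES: L-G4-U1 (section `Rho`), L-G4-U2 (`g4_rho_surj`, `g4_rho_unitary`), L-G4-U3 (`g4_cstruct`), L-G4-U4 (`g4_spectral`, `g4_unitary_block`, `g4_unitary_block'`),
L-G4-U5 (`g4_cx_J`, `g4_herm_orbit`), L-G4-U6 (`g4_moment_double`, `g4_momentA_reindex`), L-G4-U7 (`g4_cx_commutant`, `g4_irrTriple`).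

`g4rho M = Re M ⊗ 1 + Im M ⊗ j`, `j = [[0, 1], [-1, 0]]`, i.e. entries `(k,0),(l,0)` and `(k,1),(l,1)`: `Re M k l`; `(k,0),(l,1)`: `Im M k l`; `(k,1),(l,0)`: `- Im M k l`.

ROUTES.
* section `Rho`: `ext ⟨k, s⟩ ⟨l, t⟩; fin_cases s <;> fin_cases t <;> simp [g4rho, Matrix.mul_apply, Fintype.sum_prod_type, Fin.sum_univ_two, Complex.mul_re, Complex.mul_im, Finset.sum_add_distrib, Finset.sum_sub_distrib, ...]`.
  `g4_rho_I_diag`: compare with `Jmat` (`an2_J_01`, `an2_J_10`, `an2_J_diag`, `an2_J_ne`), `Matrix.diagonal_apply`.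
* `g4_rho_surj`.  By `an2_J_mul_apply`, `an2_mul_J_apply` with `x = 1`: `C (k,1) (l,1) = C (k,0) (l,0)` and `C (k,1) (l,0) = - C (k,0) (l,1)`.  `M k l := ⟨C (k,0) (l,0), C (k,0) (l,1)⟩`.
* `g4_rho_unitary`.  `ρ(U) ρ(U)ᵀ = ρ(U Uᴴ) = ρ(1) = 1`; `ρ(U)` commutes with `J(1) = ρ(i • 1)` (`g4_rho_I_diag` with `c = 1`, scalar matrices are central), so `det ≥ 0` (`an2_det_nonneg`), so `det = 1` (`an2_orth_det`); `an2_so_mk`.
* `g4_cstruct`.  `an2_normal_orth`: `I = g J(s) gᵀ`.  `I * I = -1` and `gᵀ g = 1` give `J(s) J(s) = -1`, so `s k ^ 2 = 1` (`an2_J_mul`, evaluate the diagonal).  `D := diagonal (fun a => if a.2 = 1 then s a.1 else 1)` is orthogonal and `D J(1) Dᵀ = J(s)` (entrywise).  Answer `g * D`.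
* `g4_spectral`: `Matrix.IsHermitian.spectral_theorem` (`H = U * diagonal (RCLike.ofReal ∘ eigenvalues) * star U`, `U = eigenvectorUnitary`).
* `g4_unitary_block`.  `g` from `g4_cstruct`.  `C̃ j := gᵀ C j g` commutes with `J(1)`, so `C̃ j = ρ(M j)` (`g4_rho_surj`); `ρ(M jᴴ) = ρ(M j)ᵀ = - ρ(M j) = ρ(- M j)`, so `M jᴴ = - M j` (`g4_rho_injective`); `H j := - i • M j` is Hermitian, `H 0 + H 1 = H 2`;
  `H j = U j diag(c j) U jᴴ` (`g4_spectral`): this is `MomentA (c 0) (c 1) (c 2)`.   `M j = i • H j = U j (diag (i c j)) U jᴴ`, so `C̃ j = ρ(U j) J(c j) ρ(U j)ᵀ`, `k j := ρ(U j) ∈ SO` (`g4_rho_unitary`).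
* `g4_unitary_block'`.  `det g = ±1` (`an2_orth_det`).  `m j := g * k j` is orthogonal with `det (m j) = det g`.  `det g = 1`: `ε := fun _ => false`, `flipV ε c = c`.   `det g = -1`: then `p > 0`; `i₀ := 0`, `ε := fun i => decide (i = i₀)`, `flipV ε c = update c i₀ (- c i₀)`; `g4_orb_of_orth`.
* `g4_cx_J`.  Explicit unitary `U₀` on `Ix p`: column `(k,0)` is `(e_(k,0) - i e_(k,1)) / √2`, column `(k,1)` is `(e_(k,0) + i e_(k,1)) / √2`:  `(i J(a)) U₀ = U₀ diag(a_k, - a_k)`.  For `σ = -1` swap the two columns.  Reindex with `finProdFinEquiv`; `g4dsp`.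
* `g4_herm_orbit`.  `A = g J(a) gᵀ`; `g.map ofReal` is unitary (`Matrix.map_mul`, `conjTranspose` of a real matrix is the transpose); reindexing of unitaries is unitary; `g4_cx_J`; product of two unitaries.
* `g4_moment_double`: `an2_moment_iff`/`g4_moment_iff`, `g4_herm_orbit` with `σ = 1` for the three matrices; `g4cx 1` is additive.
* `g4_momentA_reindex`.  `n = m` (`Fintype.card_congr`), `subst`.  For `σ : Perm (Fin n)`: `diagonal (c ∘ σ) = Pᴴ diagonal c P` for the permutation matrix `P` (`Equiv.Perm.permMatrix`/`Equiv.toPEquiv.toMatrix`, or `Matrix.reindex`: `(diagonal c).submatrix σ σ = diagonal (c ∘ σ)`: `Matrix.submatrix_diagonal_equiv`), `P` unitary; absorb `P` in `g, h, k`.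
* `g4_cx_commutant`.  `Z' := reindex back to Ix p`; `B := Z'.map re`, `D := Z'.map im`; `Z' * (A j).map ofReal = (A j).map ofReal * Z'` (cancel the scalar `σ i ≠ 0`) gives entrywise `B A j = A j B`, `D A j = A j D`.  `B = β • 1`, `D = δ • 1`, `Z = (β + δ i) • 1`.
* `g4_irrTriple`.  `orbit`: `g4_herm_orbit` (`σ = 1, 1, -1`), `fin_cases i`.  `sum`: `g4cx` is linear in `(σ, A)`: `i A 0 + i A 1 - i A 2 = 0`.  `irr`: `g4_cx_commutant`.
-/

set_option autoImplicit false

namespace Claimed.Agent.R282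

open Matrix
open scoped Kronecker

variable {n p q : ℕ}

section Rho

theorem g4u_rho_00 (M : Matrix (Fin p) (Fin p) ℂ) (k l : Fin p) : g4rho M (k, 0) (l, 0) = (M k l).re := by
  simp [g4rho]

theorem g4u_rho_11 (M : Matrix (Fin p) (Fin p) ℂ) (k l : Fin p) : g4rho M (k, 1) (l, 1) = (M k l).re := by
  simp [g4rho]

theorem g4u_rho_01 (M : Matrix (Fin p) (Fin p) ℂ) (k l : Fin p) : g4rho M (k, 0) (l, 1) = (M k l).im := by
  simp [g4rho]

theorem g4u_rho_10 (M : Matrix (Fin p) (Fin p) ℂ) (k l : Fin p) : g4rho M (k, 1) (l, 0) = - (M k l).im := by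
  simp [g4rho]

theorem g4_rho_mul (M N : Matrix (Fin p) (Fin p) ℂ) : g4rho (M * N) = g4rho M * g4rho N := by
  ext ⟨k, s⟩ ⟨l, t⟩
  fin_cases s <;> fin_cases t <;>
  simp only [Fin.zero_eta, Fin.mk_one, Matrix.mul_apply, Fintype.sum_prod_type, Fin.sum_univ_two,
    g4u_rho_00, g4u_rho_01, g4u_rho_10, g4u_rho_11, Complex.re_sum, Complex.im_sum, Complex.mul_re,
    Complex.mul_im, ← Finset.sum_neg_distrib] <;>
  refine Finset.sum_congr rfl fun j _ => ?_ <;> ring

theorem g4_rho_add (M N : Matrix (Fin p) (Fin p) ℂ) : g4rho (M + N) = g4rho M + g4rho N := by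
  ext ⟨k, s⟩ ⟨l, t⟩
  fin_cases s <;> fin_cases t <;>
  simp only [Fin.zero_eta, Fin.mk_one, Matrix.add_apply,
    g4u_rho_00, g4u_rho_01, g4u_rho_10, g4u_rho_11, Complex.add_re, Complex.add_im] <;> ring

theorem g4_rho_neg (M : Matrix (Fin p) (Fin p) ℂ) : g4rho (-M) = - g4rho M := by
  ext ⟨k, s⟩ ⟨l, t⟩
  fin_cases s <;> fin_cases t <;>
  simp only [Fin.zero_eta, Fin.mk_one, Matrix.neg_apply,
    g4u_rho_00, g4u_rho_01, g4u_rho_10, g4u_rho_11, Complex.neg_re, Complex.neg_im]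

theorem g4_rho_one : g4rho (1 : Matrix (Fin p) (Fin p) ℂ) = 1 := by
  ext ⟨k, s⟩ ⟨l, t⟩
  by_cases hkl : k = l
  · subst hkl
    fin_cases s <;> fin_cases t <;>
    simp [g4u_rho_00, g4u_rho_01, g4u_rho_10, g4u_rho_11]
  · fin_cases s <;> fin_cases t <;>
    simp [g4u_rho_00, g4u_rho_01, g4u_rho_10, g4u_rho_11, hkl]

theorem g4_rho_conjTranspose (M : Matrix (Fin p) (Fin p) ℂ) : g4rho M.conjTranspose = (g4rho M).transpose := by
  ext ⟨k, s⟩ ⟨l, t⟩
  fin_cases s <;> fin_cases t <;>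
  simp [g4u_rho_00, g4u_rho_01, g4u_rho_10, g4u_rho_11, Matrix.conjTranspose_apply, Matrix.transpose_apply]

theorem g4_rho_injective : Function.Injective (g4rho : Matrix (Fin p) (Fin p) ℂ → An2M p) := by
  intro M N h
  ext k l
  apply Complex.ext
  · rw [← g4u_rho_00, ← g4u_rho_00, h]
  · rw [← g4u_rho_01, ← g4u_rho_01, h]

theorem g4_rho_I_diag (c : Vec p) : g4rho (Matrix.diagonal fun k => Complex.I * (c k : ℂ)) = Jmat c := by
  ext ⟨k, s⟩ ⟨l, t⟩
  by_cases hkl : k = l
  · subst hkl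
    fin_cases s <;> fin_cases t <;>
    simp [g4u_rho_00, g4u_rho_01, g4u_rho_10, g4u_rho_11, an2_J_01, an2_J_10, an2_J_diag]
  · rw [an2_J_ne c hkl]
    fin_cases s <;> fin_cases t <;>
    simp [g4u_rho_00, g4u_rho_01, g4u_rho_10, g4u_rho_11, hkl]

end Rho

/-- the commutant of the standard complex structure -/
theorem g4_rho_surj (C : An2M p) (h : C * Jmat (fun _ => 1) = Jmat (fun _ => 1) * C) : ∃ M, C = g4rho M := by
  refine ⟨Matrix.of fun k l => ⟨C (k, 0) (l, 0), C (k, 0) (l, 1)⟩, ?_⟩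
  ext ⟨k, s⟩ ⟨l, t⟩
  have h00 := congrFun (congrFun h (k, 0)) (l, 0)
  have h01 := congrFun (congrFun h (k, 0)) (l, 1)
  rw [(an2_mul_J_apply _ C (k, 0) l).1, (an2_J_mul_apply _ C k (l, 0)).1] at h00
  rw [(an2_mul_J_apply _ C (k, 0) l).2, (an2_J_mul_apply _ C k (l, 1)).1] at h01
  fin_cases s <;> fin_cases t
  · simp [g4u_rho_00]
  · simp [g4u_rho_01]
  · simp only [Fin.zero_eta, Fin.mk_one, g4u_rho_10, Matrix.of_apply]
    linarith
  · simp only [Fin.mk_one, g4u_rho_11, Matrix.of_apply]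
    linarith

theorem g4_rho_unitary (U : Matrix.unitaryGroup (Fin p) ℂ) :
    g4rho U.1 ∈ Matrix.specialOrthogonalGroup (Ix p) ℝ := by
  have h1 : g4rho U.1 * (g4rho U.1).transpose = 1 := by
    rw [← g4_rho_conjTranspose, ← g4_rho_mul]
    have : U.1 * U.1.conjTranspose = 1 := by
      have := (Matrix.mem_unitaryGroup_iff).1 U.2
      exact this
    rw [this, g4_rho_one]
  have h2 : g4rho U.1 * Jmat (fun _ => 1) = Jmat (fun _ => 1) * g4rho U.1 := by
    have e : (Jmat (fun _ => 1) : An2M p) = g4rho (Complex.I • (1 : Matrix (Fin p) (Fin p) ℂ)) := by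
      rw [← g4_rho_I_diag]
      congr 1
      ext i j
      by_cases hij : i = j
      · subst hij; simp
      · simp [hij]
    rw [e, ← g4_rho_mul, ← g4_rho_mul]
    congr 1
    simp
  have h3 := an2_det_nonneg (fun _ => 1) (fun _ => by norm_num) _ h2
  rcases an2_orth_det _ h1 with h4 | h4
  · exact an2_so_mk _ h1 h4
  · rw [h4] at h3
    linarith

theorem g4u_D_conj (s : Vec p) :
    Matrix.diagonal (fun a : Ix p => if a.2 = 1 then s a.1 else 1) * Jmat (fun _ => 1)
      * (Matrix.diagonal (fun a : Ix p => if a.2 = 1 then s a.1 else 1)).transpose = Jmat s := by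
  ext ⟨k, u⟩ ⟨l, t⟩
  rw [Matrix.diagonal_transpose, Matrix.mul_diagonal, Matrix.diagonal_mul]
  by_cases hkl : k = l
  · subst hkl
    fin_cases u <;> fin_cases t <;> simp [an2_J_01, an2_J_10, an2_J_diag]
  · rw [an2_J_ne _ hkl, an2_J_ne _ hkl]
    simp

/-- orthogonal complex structures are conjugate to the standard one -/
theorem g4_cstruct (I : An2M p) (h1 : I.transpose = -I) (h2 : I * I = -1) :
    ∃ g : An2M p, g * g.transpose = 1 ∧ I = g * Jmat (fun _ => 1) * g.transpose := by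
  obtain ⟨g, s, hg, hI⟩ := an2_normal_orth I h1
  have hg' : g.transpose * g = 1 := mul_eq_one_comm.1 hg
  have hJ : Jmat s * Jmat s = -1 := by
    calc Jmat s * Jmat s
        = (g.transpose * g) * Jmat s * (g.transpose * g) * Jmat s * (g.transpose * g) := by
          rw [hg', Matrix.one_mul, Matrix.mul_one, Matrix.mul_one]
      _ = g.transpose * ((g * Jmat s * g.transpose) * (g * Jmat s * g.transpose)) * g := by
          simp only [Matrix.mul_assoc]
      _ = -1 := by rw [← hI, h2, Matrix.mul_neg, Matrix.mul_one, Matrix.neg_mul, hg']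
  have hs : ∀ k, s k * s k = 1 := by
    intro k
    have h3 := congrFun (congrFun hJ (k, 0)) (k, 0)
    rw [an2_J_mul, Matrix.diagonal_apply_eq, Matrix.neg_apply, Matrix.one_apply_eq] at h3
    linarith
  obtain ⟨D, hD⟩ : ∃ D : An2M p, D = Matrix.diagonal (fun a : Ix p => if a.2 = 1 then s a.1 else 1) :=
    ⟨_, rfl⟩
  have hDD : D * D.transpose = 1 := by
    rw [hD, Matrix.diagonal_transpose, Matrix.diagonal_mul_diagonal, ← Matrix.diagonal_one]
    congr 1
    funext a
    by_cases ha : a.2 = 1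
    · simp only [if_pos ha]; exact hs a.1
    · simp only [if_neg ha]; norm_num
  have hDJ : D * Jmat (fun _ => 1) * D.transpose = Jmat s := by rw [hD]; exact g4u_D_conj s
  refine ⟨g * D, ?_, ?_⟩
  · rw [Matrix.transpose_mul]
    calc g * D * (D.transpose * g.transpose) = g * (D * D.transpose) * g.transpose := by
          simp only [Matrix.mul_assoc]
      _ = 1 := by rw [hDD, Matrix.mul_one, hg]
  · rw [Matrix.transpose_mul, hI, ← hDJ]
    simp only [Matrix.mul_assoc]

theorem g4_spectral (H : Matrix (Fin p) (Fin p) ℂ) (hH : H.IsHermitian) :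
    ∃ (U : Matrix.unitaryGroup (Fin p) ℂ) (c : Vec p),
      H = U.1 * Matrix.diagonal (fun i => (c i : ℂ)) * U.1.conjTranspose := by
  refine ⟨hH.eigenvectorUnitary, hH.eigenvalues, ?_⟩
  have h := hH.spectral_theorem
  rw [Unitary.conjStarAlgAut_apply] at h
  exact h

/-- a skew triple commuting with an orthogonal complex structure is a unitary block -/
theorem g4_unitary_block (C : Fin 3 → An2M p) (hsk : ∀ j, (C j).transpose = - C j) (hsum : C 0 + C 1 = C 2)
    (I : An2M p) (h1 : I.transpose = -I) (h2 : I * I = -1) (hc : ∀ j, I * C j = C j * I) :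
    ∃ (c : Fin 3 → Vec p) (g : An2M p), g * g.transpose = 1 ∧ MomentA (c 0) (c 1) (c 2) ∧
      ∀ j, ∃ k : Matrix.specialOrthogonalGroup (Ix p) ℝ,
        C j = (g * k.1) * Jmat (c j) * (g * k.1).transpose := by
  obtain ⟨g, hg, hI⟩ := g4_cstruct I h1 h2
  have hg' : g.transpose * g = 1 := mul_eq_one_comm.1 hg
  have hJ1 : Jmat (fun _ => 1) = g.transpose * I * g := by
    rw [hI]
    calc Jmat (fun _ => 1) = (g.transpose * g) * Jmat (fun _ => 1) * (g.transpose * g) := by
          rw [hg', Matrix.one_mul, Matrix.mul_one]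
      _ = _ := by simp only [Matrix.mul_assoc]
  have hcomm : ∀ j, (g.transpose * C j * g) * Jmat (fun _ => 1)
      = Jmat (fun _ => 1) * (g.transpose * C j * g) := by
    intro j
    rw [hJ1]
    calc g.transpose * C j * g * (g.transpose * I * g)
        = g.transpose * C j * (g * g.transpose) * I * g := by simp only [Matrix.mul_assoc]
      _ = g.transpose * (C j * I) * g := by rw [hg, Matrix.mul_one]; simp only [Matrix.mul_assoc]
      _ = g.transpose * (I * C j) * g := by rw [hc j]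
      _ = g.transpose * I * (g * g.transpose) * C j * g := by
          rw [hg, Matrix.mul_one]; simp only [Matrix.mul_assoc]
      _ = _ := by simp only [Matrix.mul_assoc]
  choose M hM using fun j => g4_rho_surj _ (hcomm j)
  have hMsk : ∀ j, (M j).conjTranspose = - M j := by
    intro j
    apply g4_rho_injective
    rw [g4_rho_conjTranspose, g4_rho_neg, ← hM j, Matrix.transpose_mul, Matrix.transpose_mul,
      Matrix.transpose_transpose, hsk j]
    simp only [Matrix.mul_neg, Matrix.neg_mul, Matrix.mul_assoc]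
  have hMsum : M 0 + M 1 = M 2 := by
    apply g4_rho_injective
    rw [g4_rho_add, ← hM 0, ← hM 1, ← hM 2, ← hsum]
    simp only [Matrix.mul_add, Matrix.add_mul]
  have hH : ∀ j, ((-Complex.I) • M j).IsHermitian := by
    intro j
    unfold Matrix.IsHermitian
    rw [Matrix.conjTranspose_smul, hMsk j]
    simp
  choose U c hU using fun j => g4_spectral _ (hH j)
  have hMU : ∀ j, M j = (U j).1 * Matrix.diagonal (fun k => Complex.I * (c j k : ℂ))
      * (U j).1.conjTranspose := by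
    intro j
    have e1 : M j = Complex.I • ((-Complex.I) • M j) := by
      rw [smul_smul]
      simp
    have e2 : Matrix.diagonal (fun k => Complex.I * (c j k : ℂ))
        = Complex.I • Matrix.diagonal (fun k => (c j k : ℂ)) := by
      rw [← Matrix.diagonal_smul]
      rfl
    rw [e1, hU j, e2]
    simp only [Matrix.mul_smul, Matrix.smul_mul]
  refine ⟨c, g, hg, ⟨U 0, U 1, U 2, ?_⟩, fun j => ⟨⟨g4rho (U j).1, g4_rho_unitary (U j)⟩, ?_⟩⟩
  · rw [← hU 0, ← hU 1, ← hU 2, ← smul_add, hMsum]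
  · have e : g.transpose * C j * g = g4rho (U j).1 * Jmat (c j) * (g4rho (U j).1).transpose := by
      rw [hM j, ← g4_rho_I_diag, ← g4_rho_conjTranspose, ← g4_rho_mul, ← g4_rho_mul, ← hMU j]
    calc C j = (g * g.transpose) * C j * (g * g.transpose) := by
          rw [hg, Matrix.one_mul, Matrix.mul_one]
      _ = g * (g.transpose * C j * g) * g.transpose := by simp only [Matrix.mul_assoc]
      _ = _ := by
          rw [e, Matrix.transpose_mul]
          simp only [Matrix.mul_assoc]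

/-- the same in orbit form: ONE common change of signs -/
theorem g4_unitary_block' (C : Fin 3 → An2M p) (hsk : ∀ j, (C j).transpose = - C j) (hsum : C 0 + C 1 = C 2)
    (I : An2M p) (h1 : I.transpose = -I) (h2 : I * I = -1) (hc : ∀ j, I * C j = C j * I) :
    ∃ (c : Fin 3 → Vec p) (ε : Fin p → Bool), MomentA (c 0) (c 1) (c 2) ∧
      ∀ j, An2Orb (C j) (flipV ε (c j)) := by
  obtain ⟨c, g, hg, hMom, hk⟩ := g4_unitary_block C hsk hsum I h1 h2 hc
  have horth : ∀ k : Matrix.specialOrthogonalGroup (Ix p) ℝ, (g * k.1) * (g * k.1).transpose = 1 := by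
    intro k
    rw [Matrix.transpose_mul]
    calc g * k.1 * (k.1.transpose * g.transpose) = g * (k.1 * k.1.transpose) * g.transpose := by
          simp only [Matrix.mul_assoc]
      _ = 1 := by rw [an2_so_mul_transpose, Matrix.mul_one, hg]
  have hdet : ∀ k : Matrix.specialOrthogonalGroup (Ix p) ℝ, (g * k.1).det = g.det := by
    intro k
    rw [Matrix.det_mul, an2_so_det, mul_one]
  rcases an2_orth_det g hg with hd | hd
  · refine ⟨c, fun _ => false, hMom, fun j => ?_⟩
    obtain ⟨k, hkj⟩ := hk j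
    have e : flipV (fun _ => false) (c j) = c j := by
      funext i
      simp [flipV, sgnB]
    rw [e, hkj]
    exact (g4_orb_of_orth _ (horth k) (c j)).1 (by rw [hdet k, hd])
  · have hp : 0 < p := by
      rcases Nat.eq_zero_or_pos p with h0 | h0
      · subst h0
        rw [Matrix.det_isEmpty] at hd
        norm_num at hd
      · exact h0
    refine ⟨c, fun i => decide (i = ⟨0, hp⟩), hMom, fun j => ?_⟩
    obtain ⟨k, hkj⟩ := hk j
    have e : flipV (fun i => decide (i = ⟨0, hp⟩)) (c j)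
        = Function.update (c j) ⟨0, hp⟩ (- c j ⟨0, hp⟩) := by
      funext i
      by_cases hi : i = ⟨0, hp⟩
      · rw [hi, Function.update_self]
        simp [flipV, sgnB]
      · rw [Function.update_of_ne hi]
        simp [flipV, sgnB, hi]
    rw [e, hkj]
    exact (g4_orb_of_orth _ (horth k) (c j)).2 (by rw [hdet k, hd]) _

/-- the `2 × 2` computation -/
theorem g4u_w (σ : ℝ) (hσ : σ = 1 ∨ σ = -1) :
    ∃ w : Matrix (Fin 2) (Fin 2) ℂ, w * w.conjTranspose = 1 ∧
      w * Matrix.diagonal ![(1 : ℂ), -1] * w.conjTranspose = ((σ : ℂ) * Complex.I) • !![0, 1; -1, 0] := by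
  obtain ⟨r, hr⟩ : ∃ r : ℝ, r * r = 1 / 2 := ⟨Real.sqrt (1 / 2), Real.mul_self_sqrt (by norm_num)⟩
  have hrC : (r : ℂ) * (r : ℂ) = 1 / 2 := by
    rw [← Complex.ofReal_mul, hr]; norm_num
  have hσ2 : (σ : ℂ) * (σ : ℂ) = 1 := by
    rcases hσ with h | h <;> rw [h] <;> norm_num
  have hI : Complex.I * Complex.I = -1 := Complex.I_mul_I
  refine ⟨!![(r : ℂ), (r : ℂ); -((σ : ℂ) * Complex.I) * r, ((σ : ℂ) * Complex.I) * r], ?_, ?_⟩
  · ext i j
    fin_cases i <;> fin_cases j <;>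
    simp only [Fin.zero_eta, Fin.mk_one, Matrix.mul_apply, Fin.sum_univ_two, Matrix.conjTranspose_apply,
      Matrix.of_apply, Matrix.cons_val_zero, Matrix.cons_val_one, Matrix.cons_val', Matrix.cons_val_fin_one,
      Matrix.one_apply_eq, Complex.star_def, map_mul, map_neg, Complex.conj_ofReal, Complex.conj_I,
      Matrix.one_apply_ne, ne_eq, zero_ne_one, one_ne_zero, not_false_eq_true]
    · linear_combination 2 * hrC
    · ring
    · ring
    · linear_combination (-2 * (σ : ℂ) * σ * r * r) * hI + (2 * r * r) * hσ2 + 2 * hrC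
  · ext i j
    fin_cases i <;> fin_cases j <;>
    simp only [Fin.zero_eta, Fin.mk_one, Matrix.mul_apply, Fin.sum_univ_two, Matrix.conjTranspose_apply,
      Matrix.of_apply, Matrix.cons_val_zero, Matrix.cons_val_one, Matrix.cons_val', Matrix.cons_val_fin_one,
      Matrix.smul_apply, smul_eq_mul, Matrix.diagonal_apply_eq, Matrix.diagonal_apply_ne, ne_eq,
      zero_ne_one, one_ne_zero, not_false_eq_true,
      Complex.star_def, map_mul, map_neg, Complex.conj_ofReal, Complex.conj_I]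
    · ring
    · linear_combination (2 * (σ : ℂ) * Complex.I) * hrC
    · linear_combination (-2 * (σ : ℂ) * Complex.I) * hrC
    · ring

theorem g4u_J_kron (a : Vec p) :
    (Jmat a).map (fun r : ℝ => (r : ℂ))
      = (Matrix.diagonal fun k => (a k : ℂ)) ⊗ₖ (!![0, 1; -1, 0] : Matrix (Fin 2) (Fin 2) ℂ) := by
  ext ⟨k, s⟩ ⟨l, t⟩
  rw [Matrix.map_apply, Matrix.kronecker_apply]
  by_cases hkl : k = l
  · subst hkl
    fin_cases s <;> fin_cases t <;> simp [an2_J_01, an2_J_10, an2_J_diag]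
  · rw [an2_J_ne a hkl, Matrix.diagonal_apply_ne _ hkl]
    simp

theorem g4u_V (a : Vec p) (σ : ℝ) (hσ : σ = 1 ∨ σ = -1) :
    ∃ V : Matrix (Ix p) (Ix p) ℂ, V * V.conjTranspose = 1 ∧
      ((σ : ℂ) * Complex.I) • (Jmat a).map (fun r : ℝ => (r : ℂ))
        = V * Matrix.diagonal (fun b : Ix p => (((if b.2 = 0 then 1 else -1) * a b.1 : ℝ) : ℂ))
          * V.conjTranspose := by
  obtain ⟨w, hw1, hw2⟩ := g4u_w σ hσ
  refine ⟨(1 : Matrix (Fin p) (Fin p) ℂ) ⊗ₖ w, ?_, ?_⟩
  · rw [Matrix.conjTranspose_kronecker, ← Matrix.mul_kronecker_mul, hw1, Matrix.conjTranspose_one,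
      Matrix.mul_one, Matrix.one_kronecker_one]
  · have e : Matrix.diagonal (fun b : Ix p => (((if b.2 = 0 then 1 else -1) * a b.1 : ℝ) : ℂ))
        = (Matrix.diagonal fun k => (a k : ℂ)) ⊗ₖ Matrix.diagonal ![(1 : ℂ), -1] := by
      rw [Matrix.diagonal_kronecker_diagonal]
      congr 1
      funext ⟨k, s⟩
      fin_cases s <;> simp
    rw [e, Matrix.conjTranspose_kronecker, ← Matrix.mul_kronecker_mul, ← Matrix.mul_kronecker_mul, hw2,
      Matrix.conjTranspose_one, Matrix.mul_one, Matrix.one_mul, Matrix.kronecker_smul, g4u_J_kron]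

theorem g4u_reindex (W X : Matrix (Ix p) (Ix p) ℂ) (hW : W * W.conjTranspose = 1) (d : Ix p → ℂ)
    (h : X = W * Matrix.diagonal d * W.conjTranspose) :
    ∃ U : Matrix.unitaryGroup (Fin (p * 2)) ℂ,
      Matrix.reindex finProdFinEquiv finProdFinEquiv X
        = U.1 * Matrix.diagonal (fun j => d (finProdFinEquiv.symm j)) * U.1.conjTranspose := by
  refine ⟨⟨Matrix.reindex finProdFinEquiv finProdFinEquiv W, ?_⟩, ?_⟩
  · rw [Matrix.mem_unitaryGroup_iff, Matrix.star_eq_conjTranspose, Matrix.reindex_apply,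
      Matrix.conjTranspose_submatrix, Matrix.submatrix_mul_equiv, hW, Matrix.submatrix_one_equiv]
  · have e : Matrix.diagonal (fun j => d (finProdFinEquiv.symm j))
        = (Matrix.diagonal d).submatrix (finProdFinEquiv (m := p) (n := 2)).symm
            (finProdFinEquiv (m := p) (n := 2)).symm := by
      rw [Matrix.submatrix_diagonal_equiv]
      rfl
    simp only [Matrix.reindex_apply]
    rw [e, Matrix.conjTranspose_submatrix, Matrix.submatrix_mul_equiv, Matrix.submatrix_mul_equiv, ← h]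

theorem g4u_herm_orbit (A : An2M p) (a : Vec p) (hA : An2Orb A a) (σ : ℝ) (hσ : σ = 1 ∨ σ = -1) :
    ∃ U : Matrix.unitaryGroup (Fin (p * 2)) ℂ,
      g4cx σ A = U.1 * Matrix.diagonal (fun j => ((g4dsp a j : ℝ) : ℂ)) * U.1.conjTranspose := by
  obtain ⟨g, hg⟩ := hA
  obtain ⟨V, hV1, hV2⟩ := g4u_V a σ hσ
  obtain ⟨G, hG⟩ : ∃ G : Matrix (Ix p) (Ix p) ℂ, G = g.1.map (fun r : ℝ => (r : ℂ)) := ⟨_, rfl⟩
  have hGt : G.conjTranspose = g.1.transpose.map (fun r : ℝ => (r : ℂ)) := by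
    rw [hG]
    ext i j
    simp
  have hmapmul : ∀ M N : An2M p, (M * N).map (fun r : ℝ => (r : ℂ))
      = M.map (fun r : ℝ => (r : ℂ)) * N.map (fun r : ℝ => (r : ℂ)) := by
    intro M N
    exact Matrix.map_mul (f := Complex.ofRealHom)
  have hGG : G * G.conjTranspose = 1 := by
    rw [hGt, hG, ← hmapmul, an2_so_mul_transpose]
    ext i j
    by_cases hij : i = j
    · subst hij; simp
    · simp [hij]
  have hX : ((σ : ℂ) * Complex.I) • A.map (fun r : ℝ => (r : ℂ))
      = (G * V) * Matrix.diagonal (fun b : Ix p => (((if b.2 = 0 then 1 else -1) * a b.1 : ℝ) : ℂ))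
        * (G * V).conjTranspose := by
    rw [hg, hmapmul, hmapmul, ← hG, ← hGt, Matrix.conjTranspose_mul]
    calc ((σ : ℂ) * Complex.I) • (G * (Jmat a).map (fun r : ℝ => (r : ℂ)) * G.conjTranspose)
        = G * (((σ : ℂ) * Complex.I) • (Jmat a).map (fun r : ℝ => (r : ℂ))) * G.conjTranspose := by
          simp only [Matrix.mul_smul, Matrix.smul_mul]
      _ = _ := by rw [hV2]; simp only [Matrix.mul_assoc]
  have hWW : (G * V) * (G * V).conjTranspose = 1 := by
    rw [Matrix.conjTranspose_mul]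
    calc G * V * (V.conjTranspose * G.conjTranspose) = G * (V * V.conjTranspose) * G.conjTranspose := by
          simp only [Matrix.mul_assoc]
      _ = 1 := by rw [hV1, Matrix.mul_one, hGG]
  obtain ⟨U, hU⟩ := g4u_reindex (G * V) _ hWW _ hX
  exact ⟨U, hU⟩

/-- `σ i J(a)` is unitarily diagonalisable with spectrum `g4dsp a` -/
theorem g4_cx_J (a : Vec p) (σ : ℝ) (hσ : σ = 1 ∨ σ = -1) :
    ∃ U : Matrix.unitaryGroup (Fin (p * 2)) ℂ,
      g4cx σ (Jmat a) = U.1 * Matrix.diagonal (fun j => ((g4dsp a j : ℝ) : ℂ)) * U.1.conjTranspose := by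
  exact g4u_herm_orbit (Jmat a) a (an2_orb_self a) σ hσ

theorem g4_herm_orbit (A : An2M p) (a : Vec p) (hA : An2Orb A a) (σ : ℝ) (hσ : σ = 1 ∨ σ = -1) :
    ∃ U : Matrix.unitaryGroup (Fin (p * 2)) ℂ,
      g4cx σ A = U.1 * Matrix.diagonal (fun j => ((g4dsp a j : ℝ) : ℂ)) * U.1.conjTranspose := by
  exact g4u_herm_orbit A a hA σ hσ

theorem g4u_cx_add (σ : ℝ) (A B : An2M p) : g4cx σ (A + B) = g4cx σ A + g4cx σ B := by
  ext i j
  simp [g4cx, mul_add]

theorem g4u_cx_neg (A : An2M p) : g4cx (-1) A = - g4cx 1 A := by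
  ext i j
  simp [g4cx]

/-- complexification of an orthogonal moment solution -/
theorem g4_moment_double (a : Fin 3 → Vec p) (h : MomentD (a 0) (a 1) (a 2)) :
    MomentA (g4dsp (a 0)) (g4dsp (a 1)) (g4dsp (a 2)) := by
  obtain ⟨A, hA⟩ := (g4_moment_iff a).1 h
  obtain ⟨U0, h0⟩ := g4_herm_orbit (A 0) (a 0) (hA.orb 0) 1 (Or.inl rfl)
  obtain ⟨U1, h1⟩ := g4_herm_orbit (A 1) (a 1) (hA.orb 1) 1 (Or.inl rfl)
  obtain ⟨U2, h2⟩ := g4_herm_orbit (A 2) (a 2) (hA.orb 2) 1 (Or.inl rfl)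
  refine ⟨U0, U1, U2, ?_⟩
  rw [← h0, ← h1, ← h2, ← g4u_cx_add, hA.sum]

theorem g4u_perm {m : ℕ} (g : Matrix.unitaryGroup (Fin m) ℂ) (c : Vec m) (τ σ : Fin n ≃ Fin m) :
    ∃ g' : Matrix.unitaryGroup (Fin n) ℂ,
      g'.1 * Matrix.diagonal (fun i => (((c ∘ σ) i : ℝ) : ℂ)) * g'.1.conjTranspose
        = (g.1 * Matrix.diagonal (fun i => (c i : ℂ)) * g.1.conjTranspose).submatrix τ τ := by
  have hg : g.1 * g.1.conjTranspose = 1 := (Matrix.mem_unitaryGroup_iff).1 g.2
  refine ⟨⟨g.1.submatrix τ σ, ?_⟩, ?_⟩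
  · rw [Matrix.mem_unitaryGroup_iff, Matrix.star_eq_conjTranspose, Matrix.conjTranspose_submatrix,
      Matrix.submatrix_mul_equiv, hg, Matrix.submatrix_one_equiv]
  · have e : Matrix.diagonal (fun i => (((c ∘ σ) i : ℝ) : ℂ))
        = (Matrix.diagonal (fun i => (c i : ℂ))).submatrix σ σ := by
      rw [Matrix.submatrix_diagonal_equiv]
      rfl
    show g.1.submatrix τ σ * _ * (g.1.submatrix τ σ).conjTranspose = _
    rw [e, Matrix.conjTranspose_submatrix, Matrix.submatrix_mul_equiv, Matrix.submatrix_mul_equiv]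

/-- the Hermitian problem only depends on the multisets of the labels -/
theorem g4_momentA_reindex {m : ℕ} (c : Fin 3 → Vec m) (σ : Fin 3 → (Fin n ≃ Fin m))
    (h : MomentA (c 0) (c 1) (c 2)) : MomentA (c 0 ∘ σ 0) (c 1 ∘ σ 1) (c 2 ∘ σ 2) := by
  obtain ⟨g, h', k, hs⟩ := h
  obtain ⟨g0, e0⟩ := g4u_perm g (c 0) (σ 0) (σ 0)
  obtain ⟨g1, e1⟩ := g4u_perm h' (c 1) (σ 0) (σ 1)
  obtain ⟨g2, e2⟩ := g4u_perm k (c 2) (σ 0) (σ 2)
  refine ⟨g0, g1, g2, ?_⟩
  rw [e0, e1, e2, ← hs]
  rfl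

theorem g4u_cx_comm (A : An2M p) (σ : ℝ) (hσ : σ ≠ 0) (Z : Matrix (Fin (p * 2)) (Fin (p * 2)) ℂ)
    (hZ : Z * g4cx σ A = g4cx σ A * Z) :
    (Z.submatrix finProdFinEquiv finProdFinEquiv).map Complex.re * A
        = A * (Z.submatrix finProdFinEquiv finProdFinEquiv).map Complex.re ∧
    (Z.submatrix finProdFinEquiv finProdFinEquiv).map Complex.im * A
        = A * (Z.submatrix finProdFinEquiv finProdFinEquiv).map Complex.im := by
  obtain ⟨Z', hZ'⟩ : ∃ Z' : Matrix (Ix p) (Ix p) ℂ, Z' = Z.submatrix finProdFinEquiv finProdFinEquiv :=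
    ⟨_, rfl⟩
  have hZZ : Z = Z'.submatrix (finProdFinEquiv (m := p) (n := 2)).symm
      (finProdFinEquiv (m := p) (n := 2)).symm := by
    rw [hZ', Matrix.submatrix_submatrix]
    simp
  have h1 : Z' * (((σ : ℂ) * Complex.I) • A.map (fun r : ℝ => (r : ℂ)))
      = (((σ : ℂ) * Complex.I) • A.map (fun r : ℝ => (r : ℂ))) * Z' := by
    unfold g4cx at hZ
    rw [Matrix.reindex_apply, hZZ, Matrix.submatrix_mul_equiv, Matrix.submatrix_mul_equiv] at hZ
    have h2 := congrArg (fun M => M.submatrix (finProdFinEquiv (m := p) (n := 2))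
      (finProdFinEquiv (m := p) (n := 2))) hZ
    simp only [Matrix.submatrix_submatrix, Equiv.symm_comp_self, Matrix.submatrix_id_id] at h2
    exact h2
  have hne : ((σ : ℂ) * Complex.I) ≠ 0 := mul_ne_zero (by exact_mod_cast hσ) Complex.I_ne_zero
  have h2 : Z' * A.map (fun r : ℝ => (r : ℂ)) = A.map (fun r : ℝ => (r : ℂ)) * Z' := by
    rw [Matrix.mul_smul, Matrix.smul_mul] at h1
    exact smul_right_injective _ hne h1
  rw [← hZ']
  constructor
  · ext x y
    have h3 := congrArg Complex.re (congrFun (congrFun h2 x) y)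
    simp only [Matrix.mul_apply, Matrix.map_apply, Complex.re_sum, Complex.mul_re, Complex.ofReal_re,
      Complex.ofReal_im, mul_zero, zero_mul, sub_zero] at h3 ⊢
    exact h3
  · ext x y
    have h3 := congrArg Complex.im (congrFun (congrFun h2 x) y)
    simp only [Matrix.mul_apply, Matrix.map_apply, Complex.im_sum, Complex.mul_im, Complex.ofReal_re,
      Complex.ofReal_im, mul_zero, zero_mul, add_zero, zero_add] at h3 ⊢
    exact h3

/-- real commutant scalar ⇒ complex commutant scalar -/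
theorem g4_cx_commutant (A : Fin 3 → An2M p)
    (hc : ∀ M : An2M p, (∀ j, M * A j = A j * M) → ∃ c : ℝ, M = c • 1)
    (Z : Matrix (Fin (p * 2)) (Fin (p * 2)) ℂ) (hZ : ∀ i, Z * g4X A i = g4X A i * Z) :
    ∃ c : ℂ, Z = c • 1 := by
  have h0 := g4u_cx_comm (A 0) 1 one_ne_zero Z (by simpa [g4X] using hZ 0)
  have h1 := g4u_cx_comm (A 1) 1 one_ne_zero Z (by simpa [g4X] using hZ 1)
  have h2 := g4u_cx_comm (A 2) (-1) (by norm_num) Z (by simpa [g4X] using hZ 2)
  obtain ⟨β, hβ⟩ := hc _ (fun j => by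
    fin_cases j
    · exact h0.1
    · exact h1.1
    · exact h2.1)
  obtain ⟨δ, hδ⟩ := hc _ (fun j => by
    fin_cases j
    · exact h0.2
    · exact h1.2
    · exact h2.2)
  refine ⟨⟨β, δ⟩, ?_⟩
  ext i j
  obtain ⟨x, rfl⟩ := (finProdFinEquiv (m := p) (n := 2)).surjective i
  obtain ⟨y, rfl⟩ := (finProdFinEquiv (m := p) (n := 2)).surjective j
  have e1 := congrFun (congrFun hβ x) y
  have e2 := congrFun (congrFun hδ x) y
  simp only [Matrix.map_apply, Matrix.submatrix_apply, Matrix.smul_apply, smul_eq_mul] at e1 e2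
  rw [Matrix.smul_apply, smul_eq_mul]
  by_cases hxy : x = y
  · subst hxy
    rw [Matrix.one_apply_eq] at e1 e2 ⊢
    apply Complex.ext
    · rw [e1]; simp
    · rw [e2]; simp
  · have hne : (finProdFinEquiv (m := p) (n := 2)) x ≠ finProdFinEquiv y :=
      fun h => hxy (finProdFinEquiv.injective h)
    rw [Matrix.one_apply_ne hxy] at e1 e2
    rw [Matrix.one_apply_ne hne]
    apply Complex.ext
    · rw [e1]; simp
    · rw [e2]; simp

theorem g4_irrTriple (a : Fin 3 → Vec p) (A : Fin 3 → An2M p) (hA : G4Triple a A)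
    (hc : ∀ M : An2M p, (∀ j, M * A j = A j * M) → ∃ c : ℝ, M = c • 1) :
    IrrTriple (p * 2) (fun j => g4dsp (a j)) (g4X A) := by
  refine ⟨fun i => ?_, ?_, g4_cx_commutant A hc⟩
  · fin_cases i
    · simpa [g4X] using g4_herm_orbit (A 0) (a 0) (hA.orb 0) 1 (Or.inl rfl)
    · simpa [g4X] using g4_herm_orbit (A 1) (a 1) (hA.orb 1) 1 (Or.inl rfl)
    · simpa [g4X] using g4_herm_orbit (A 2) (a 2) (hA.orb 2) (-1) (Or.inr rfl)
  · have e0 : g4X A 0 = g4cx 1 (A 0) := by simp [g4X]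
    have e1 : g4X A 1 = g4cx 1 (A 1) := by simp [g4X]
    have e2 : g4X A 2 = g4cx (-1) (A 2) := by simp [g4X]
    rw [e0, e1, e2, g4u_cx_neg, ← g4u_cx_add, hA.sum, add_neg_cancel]

end Claimed.Agent.R282
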